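import Vale.Agent.Lib.P040.TP.Gen.Defs

namespace Vale.Agent.Lib.P040.TP.Gen

theorem dcol_left (h j : ℕ) (hj : j ≤ h) : dcol (2 * h + 1) j = j := by
  unfold dcol
  push_cast
  omega

theorem dcol_cast (n j : ℕ) (hj : j < n) : dcol n j = ((min j (n - 1 - j) : ℕ) : ℤ) := by
  unfold dcol
  omega

/-- A sum of signs over a finite set is a difference of two counts. -/
private lemma pure_sum_counts (ε : ℕ → ℤ) (hε : IsSign ε) (s : Finset ℕ) :
    ∃ a b : ℕ, a + b = s.card ∧ ∑ l ∈ s, ε l = (a : ℤ) - b := by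
  classical
  induction s using Finset.induction_on with
  | empty => exact ⟨0, 0, by simp, by simp⟩
  | insert x s hx ih =>
    obtain ⟨a, b, hab, hs⟩ := ih
    rw [Finset.sum_insert hx, Finset.card_insert_of_notMem hx, hs]
    rcases hε x with he | he
    · exact ⟨a + 1, b, by omega, by rw [he]; push_cast; ring⟩
    · exact ⟨a, b + 1, by omega, by rw [he]; push_cast; ring⟩

/-- The sum of the signs over the left zone is a difference of two counts. -/
theorem pre_counts (g : ℕ) (ε : ℕ → ℤ) (hε : IsSign ε) :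
    ∃ a b : ℕ, a + b = g ∧ pre ε g = (a : ℤ) - b := by
  obtain ⟨a, b, hab, hs⟩ := pure_sum_counts ε hε (Finset.range g)
  rw [Finset.card_range] at hab
  exact ⟨a, b, hab, hs⟩

private lemma pure_suf_counts (n j : ℕ) (ε : ℕ → ℤ) (hε : IsSign ε) :
    ∃ a b : ℕ, a + b = n - (j + 1) ∧ suf n ε j = (a : ℤ) - b := by
  obtain ⟨a, b, hab, hs⟩ := pure_sum_counts ε hε (Finset.Ico (j + 1) n)
  rw [Nat.card_Ico] at hab
  exact ⟨a, b, hab, hs⟩

/-- A vertex in a gap `g ≤ h + 1` is pure in the columns to its left. -/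
theorem prof_left_pure (h g j : ℕ) (ε : ℕ → ℤ) (hε : IsSign ε) (hg : g ≤ h + 1) (hj : j < g) :
    prof (2 * h + 1) g ε j = pre ε j := by
  obtain ⟨a, b, hab, hp⟩ := pre_counts j ε hε
  unfold prof phi
  rw [if_neg (by omega), dcol_left h j (by omega), hp]
  rcases hε j with he | he <;> rw [he] <;> push_cast <;> omega

/-- Size and parity of the profile. -/
theorem prof_bound (h g j : ℕ) (ε : ℕ → ℤ) (hε : IsSign ε) (hj : j < 2 * h + 1) :
    |prof (2 * h + 1) g ε j| ≤ dcol (2 * h + 1) j ∧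
      ∃ k : ℤ, prof (2 * h + 1) g ε j + dcol (2 * h + 1) j = 2 * k := by
  obtain ⟨a, b, hab, hp⟩ := pre_counts j ε hε
  obtain ⟨a', b', hab', hs⟩ := pure_suf_counts (2 * h + 1) j ε hε
  have key : -dcol (2 * h + 1) j ≤ prof (2 * h + 1) g ε j ∧
      prof (2 * h + 1) g ε j ≤ dcol (2 * h + 1) j ∧
      (prof (2 * h + 1) g ε j + dcol (2 * h + 1) j) % 2 = 0 := by
    unfold prof phi dcol
    by_cases hgj : g ≤ j
    · rw [if_pos hgj, hs]
      rcases hε j with he | he <;> rw [he] <;> push_cast <;> omega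
    · rw [if_neg hgj, hp]
      rcases hε j with he | he <;> rw [he] <;> push_cast <;> omega
  obtain ⟨k1, k2, k3⟩ := key
  refine ⟨abs_le.mpr ⟨k1, k2⟩, (prof (2 * h + 1) g ε j + dcol (2 * h + 1) j) / 2, ?_⟩
  omega

end Vale.Agent.Lib.P040.TP.Gen
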