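import Vale.Agent.Lib.P040.TP.Gen.Thermo
import Vale.Agent.Lib.P040.TP.Gen.Pure

namespace Vale.Agent.Lib.P040.TP.Gen

/-- One column: the agreeing cells of column `j`, doubled, are the column term. -/
private theorem agree_count_col (h g g' : ℕ) (hg : g ≤ g') (x x' : Fin (2 * h + 1) → Bool)
    (j : Fin (2 * h + 1)) :
    2 * (((Finset.univ : Finset (Fin (min j.val (2 * h + 1 - 1 - j.val)))).filter (fun t =>
        bit (2 * h + 1) g x ⟨j, t⟩ = bit (2 * h + 1) g' x' ⟨j, t⟩)).card : ℤ)
      = agree2 (2 * h + 1) g g' (ext (2 * h + 1) x) (ext (2 * h + 1) x') j.val := by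
  obtain ⟨hu, pu⟩ := prof_bound h g j.val (ext (2 * h + 1) x) (ext_isSign (2 * h + 1) x) j.isLt
  obtain ⟨hu', pu'⟩ :=
    prof_bound h g' j.val (ext (2 * h + 1) x') (ext_isSign (2 * h + 1) x') j.isLt
  have hdc := dcol_cast (2 * h + 1) j.val j.isLt
  rw [hdc] at hu pu hu' pu'
  unfold agree2
  simp only [bit, hdc]
  by_cases h1 : g ≤ j.val
  · by_cases h2 : g' ≤ j.val
    · have h3 : ¬ (g ≤ j.val ∧ j.val < g') := by omega
      rw [if_neg h3]
      simp only [h1, h2, if_true]
      exact thermo_same _ _ _ hu hu' pu pu'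
    · have h3 : g ≤ j.val ∧ j.val < g' := by omega
      rw [if_pos h3]
      simp only [h1, h2, if_true, if_false]
      exact thermo_opp _ _ _ hu hu' pu pu'
  · have h2 : ¬ g' ≤ j.val := by omega
    have h3 : ¬ (g ≤ j.val ∧ j.val < g') := by omega
    rw [if_neg h3]
    simp only [h1, h2, if_false]
    exact thermo_same_top _ _ _ hu hu' pu pu'

/-- The number of cells on which two vertices agree, doubled, is the sum of the column terms. -/
theorem agree_count (h g g' : ℕ) (hg : g ≤ g') (x x' : Fin (2 * h + 1) → Bool) :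
    2 * (((Finset.univ : Finset (Cell (2 * h + 1))).filter (fun c =>
        bit (2 * h + 1) g x c = bit (2 * h + 1) g' x' c)).card : ℤ)
      = ∑ j ∈ Finset.range (2 * h + 1),
          agree2 (2 * h + 1) g g' (ext (2 * h + 1) x) (ext (2 * h + 1) x') j := by
  have hsplit : ((Finset.univ : Finset (Cell (2 * h + 1))).filter (fun c =>
        bit (2 * h + 1) g x c = bit (2 * h + 1) g' x' c)).card
      = ∑ j : Fin (2 * h + 1),
          ((Finset.univ : Finset (Fin (min j.val (2 * h + 1 - 1 - j.val)))).filter (fun t =>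
            bit (2 * h + 1) g x ⟨j, t⟩ = bit (2 * h + 1) g' x' ⟨j, t⟩)).card := by
    rw [Finset.card_filter, Fintype.sum_sigma]
    refine Finset.sum_congr rfl (fun j _ => ?_)
    rw [Finset.card_filter]
  rw [hsplit]
  push_cast
  rw [Finset.mul_sum, ← Fin.sum_univ_eq_sum_range
    (fun j => agree2 (2 * h + 1) g g' (ext (2 * h + 1) x) (ext (2 * h + 1) x') j) (2 * h + 1)]
  exact Finset.sum_congr rfl (fun j _ => agree_count_col h g g' hg x x' j)

end Vale.Agent.Lib.P040.TP.Gen
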