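import Vale.Agent.Lib.P040.TP.Gen.Defs

namespace Vale.Agent.Lib.P040.TP.Gen

private theorem sum_min_aux (h : ℕ) :
    ∑ j ∈ Finset.range (2 * h + 1), min j (2 * h - j) = h * h := by
  induction h with
  | zero => simp
  | succ k ih =>
    have e : 2 * (k + 1) + 1 = (2 * k + 1) + 1 + 1 := by ring
    rw [e, Finset.sum_range_succ, Finset.sum_range_succ']
    have h1 : ∀ j ∈ Finset.range (2 * k + 1),
        min (j + 1) (2 * (k + 1) - (j + 1)) = min j (2 * k - j) + 1 := by
      intro j hj
      have := Finset.mem_range.mp hj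
      omega
    rw [Finset.sum_congr rfl h1, Finset.sum_add_distrib, ih]
    simp
    have : min (2 * k + 1 + 1) (2 * (k + 1) - (2 * k + 1 + 1)) = 0 := by omega
    rw [this]
    ring

/-- There are `h * h` cells for `2h+1` points. -/
theorem card_cell (h : ℕ) : Fintype.card (Cell (2 * h + 1)) = h * h := by
  rw [Fintype.card_sigma]
  simp only [Fintype.card_fin]
  rw [Fin.sum_univ_eq_sum_range (fun j => min j (2 * h + 1 - 1 - j)) (2 * h + 1)]
  simpa using sum_min_aux h

end Vale.Agent.Lib.P040.TP.Gen
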