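import Vale.Agent.Lib.P040.TP.Gen.Defs

namespace Vale.Agent.Lib.P040.TP.Gen

private theorem sgn_mul_aux (a b : Bool) :
    (2 : ℤ) * (if a = b then 1 else 0) = 1 + sgn a * sgn b := by
  cases a <;> cases b <;> simp [sgn]

private theorem ext_val_aux (n : ℕ) (x : Fin n → Bool) (k : Fin n) :
    ext n x k.val = sgn (x k) := by
  simp [ext, k.isLt]

/-- The number of crossings between two stars, doubled, in sign form. -/
theorem cross_count (n g g' : ℕ) (x x' : Fin n → Bool) :
    2 * (((Finset.univ : Finset (Fin n × Fin n)).filter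
        (fun p => CrossCond g g' p.1 p.2 ∧ x p.1 = x' p.2)).card : ℤ)
      = cross2 n g g' (ext n x) (ext n x') := by
  unfold cross2
  rw [← Fin.sum_univ_eq_sum_range
    (fun k => ∑ l ∈ Finset.range n,
      if CrossCond g g' k l then 1 + ext n x k * ext n x' l else 0) n]
  have h2 : ∀ k : Fin n,
      (∑ l ∈ Finset.range n,
        if CrossCond g g' k.val l then 1 + ext n x k.val * ext n x' l else 0)
      = ∑ l : Fin n,
        if CrossCond g g' k.val l.val then 1 + ext n x k.val * ext n x' l.val else 0 := by
    intro k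
    rw [← Fin.sum_univ_eq_sum_range
      (fun l => if CrossCond g g' k.val l then 1 + ext n x k.val * ext n x' l else 0) n]
  rw [Finset.sum_congr rfl (fun k _ => h2 k)]
  rw [Finset.card_filter]
  push_cast
  rw [Fintype.sum_prod_type, Finset.mul_sum]
  refine Finset.sum_congr rfl (fun k _ => ?_)
  rw [Finset.mul_sum]
  refine Finset.sum_congr rfl (fun l _ => ?_)
  rw [ext_val_aux, ext_val_aux, ← sgn_mul_aux]
  by_cases hc : CrossCond g g' k.val l.val
  · by_cases hx : x k = x' l <;> simp [hc, hx]
  · simp [hc]

end Vale.Agent.Lib.P040.TP.Gen
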