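import Vale.Agent.Lib.P040.TP.Gen.CoreAll
import Vale.Agent.Lib.P040.TP.Gen.CertHalf

namespace Vale.Agent.Lib.P040.TP.Gen

private theorem card_sigmaGen_eq_all (n g g' : ℕ) (x x' : Fin n → Bool) :
    ((Finset.univ : Finset (Fin (Fintype.card (Cell n)))).filter
        (fun k => sigmaGen n g x k = sigmaGen n g' x' k)).card =
      ((Finset.univ : Finset (Cell n)).filter (fun c => bit n g x c = bit n g' x' c)).card := by
  refine Finset.card_equiv (Fintype.equivFin (Cell n)).symm ?_
  intro k
  rw [Finset.mem_filter, Finset.mem_filter]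
  simp only [Finset.mem_univ, true_and, sigmaGen]

/-- The certificate inequality for every pair of gaps `g ≤ g' ≤ 2h+1`. -/
theorem cert_all (h g g' : ℕ) (x x' : Fin (2 * h + 1) → Bool) (hg : g ≤ g')
    (hg' : g' ≤ 2 * h + 1) :
    ((Finset.univ : Finset (Fin (Fintype.card (Cell (2 * h + 1))))).filter
        (fun k => sigmaGen (2 * h + 1) g x k = sigmaGen (2 * h + 1) g' x' k)).card ≤
      ((Finset.univ : Finset (Fin (2 * h + 1) × Fin (2 * h + 1))).filter
        (fun p => CrossCond g g' p.1 p.2 ∧ x p.1 = x' p.2)).card := by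
  rw [card_sigmaGen_eq_all]
  have h1 := agree_count h g g' hg x x'
  have h2 := cross_count (2 * h + 1) g g' x x'
  have h3 := core_all h g g' (ext (2 * h + 1) x) (ext (2 * h + 1) x')
    (ext_isSign _ x) (ext_isSign _ x') hg hg'
  have h4 : 2 * (((Finset.univ : Finset (Cell (2 * h + 1))).filter (fun c =>
        bit (2 * h + 1) g x c = bit (2 * h + 1) g' x' c)).card : ℤ) ≤
      2 * (((Finset.univ : Finset (Fin (2 * h + 1) × Fin (2 * h + 1))).filter
        (fun p => CrossCond g g' p.1 p.2 ∧ x p.1 = x' p.2)).card : ℤ) := by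
    rw [h1, h2]
    exact h3
  have h5 : (((Finset.univ : Finset (Cell (2 * h + 1))).filter (fun c =>
        bit (2 * h + 1) g x c = bit (2 * h + 1) g' x' c)).card : ℤ) ≤
      (((Finset.univ : Finset (Fin (2 * h + 1) × Fin (2 * h + 1))).filter
        (fun p => CrossCond g g' p.1 p.2 ∧ x p.1 = x' p.2)).card : ℤ) := by
    linarith
  exact_mod_cast h5

end Vale.Agent.Lib.P040.TP.Gen
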