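import Vale.Agent.Lib.P040.TP.Gen.CoreHalf
import Vale.Agent.Lib.P040.TP.Gen.NB.Core

namespace Vale.Agent.Lib.P040.TP.Gen

/-- The two-star inequality for straddling pairs with at most `h + 1` points between the two
vertices. -/
theorem core_near (h g g' : ℕ) (ε ε' : ℕ → ℤ) (hε : IsSign ε) (hε' : IsSign ε') (hg1 : 1 ≤ g)
    (hgh : g + 1 ≤ h) (hg' : h + 2 ≤ g') (hgn : g' + 1 ≤ 2 * h + 1) (hnear : g' ≤ g + h + 1) :
    ∑ j ∈ Finset.range (2 * h + 1), agree2 (2 * h + 1) g g' ε ε' j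
      ≤ cross2 (2 * h + 1) g g' ε ε' :=
  NB.core_near_gen h g g' ε ε' hε hε' (by omega) (by omega) (by omega)
    (by have := hg1; omega)

end Vale.Agent.Lib.P040.TP.Gen
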