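import Vale.Agent.Lib.P040.TP.Gen.Ends
import Vale.Agent.Lib.P040.TP.Gen.CoreNear
import Vale.Agent.Lib.P040.TP.Gen.CoreFar

namespace Vale.Agent.Lib.P040.TP.Gen

/-- The two-star inequality for every pair of gaps. -/
theorem core_all (h g g' : ℕ) (ε ε' : ℕ → ℤ) (hε : IsSign ε) (hε' : IsSign ε') (hg : g ≤ g')
    (hg' : g' ≤ 2 * h + 1) :
    ∑ j ∈ Finset.range (2 * h + 1), agree2 (2 * h + 1) g g' ε ε' j
      ≤ cross2 (2 * h + 1) g g' ε ε' := by
  by_cases h1 : g' ≤ h + 1
  · exact core_half h g g' ε ε' hε hε' hg h1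
  by_cases h2 : h ≤ g
  · exact core_mirror h g g' ε ε' hε hε' hg h2 hg'
  by_cases h3 : g = 0
  · subst h3
    exact core_zero h g' ε ε' hε hε' hg'
  by_cases h4 : g' = 2 * h + 1
  · subst h4
    exact core_top h g ε ε' hε hε' hg
  by_cases h5 : g' ≤ g + h
  · exact core_near h g g' ε ε' hε hε' (by omega) (by omega) (by omega) (by omega) (by omega)
  · exact core_far h g g' ε ε' hε hε' (by omega) (by omega) (by omega)

end Vale.Agent.Lib.P040.TP.Gen
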