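import Vale.Agent.Lib.P040.TP.Gen.WSum

namespace Vale.Agent.Lib.P040.TP.Gen

private theorem s1_depth_zero (h j : ℕ) (hj : h + 1 ≤ j) :
    2 * (2 * (h : ℤ) - j - dcol (2 * h + 1) j) = 0 := by
  unfold dcol
  have h1 : ((2 * h + 1 : ℕ) : ℤ) - 1 - j ≤ (j : ℤ) := by
    push_cast
    have : ((h : ℤ) + 1) ≤ (j : ℤ) := by exact_mod_cast hj
    linarith
  rw [min_eq_right h1]
  push_cast
  ring

private theorem s1_depth (h : ℕ) : ∀ d g' : ℕ, g' + d = h + 1 →
    ∑ j ∈ Finset.Ico g' (2 * h + 1), (2 * (2 * (h : ℤ) - j - dcol (2 * h + 1) j))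
      = 2 * (d : ℤ) * ((d : ℤ) - 1) := by
  intro d
  induction d with
  | zero =>
    intro g' hg
    have hg' : g' = h + 1 := by omega
    subst hg'
    rw [Finset.sum_eq_zero]
    · simp
    · intro j hj
      rw [Finset.mem_Ico] at hj
      exact s1_depth_zero h j hj.1
  | succ d ih =>
    intro g' hg
    have hlt : g' < 2 * h + 1 := by omega
    rw [Finset.sum_eq_sum_Ico_succ_bot hlt, ih (g' + 1) (by omega)]
    have hgh : (g' : ℤ) + d = h := by
      have : g' + d = h := by omega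
      exact_mod_cast this
    unfold dcol
    have h1 : (g' : ℤ) ≤ ((2 * h + 1 : ℕ) : ℤ) - 1 - g' := by
      push_cast
      have : (0 : ℤ) ≤ d := by positivity
      linarith
    rw [min_eq_left h1]
    push_cast
    have hh : (h : ℤ) = g' + d := hgh.symm
    rw [hh]
    ring

/-- The total of the depth defects and absolute clamp corrections over all the columns to the
right of a vertex in gap `g' ≤ h + 1`. -/
theorem s1 (h g' : ℕ) (ε' : ℕ → ℤ) (hε' : IsSign ε') (hg' : g' ≤ h + 1) :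
    ∑ j ∈ Finset.Ico g' (2 * h + 1),
        (2 * (2 * (h : ℤ) - j - dcol (2 * h + 1) j) - |omega (2 * h + 1) g' ε' j|)
      = ((h : ℤ) + 1 - g') * ((h : ℤ) - g') := by
  rw [Finset.sum_sub_distrib]
  have hW := W_abs h g' g' ε' hε' hg' le_rfl (by omega)
  have hadd := cnt_add (2 * h + 1) g' (by omega) ε'
  obtain ⟨d, hd⟩ : ∃ d : ℕ, g' + d = h + 1 := ⟨h + 1 - g', by omega⟩
  have hdep := s1_depth h d g' hd
  have hdz : (d : ℤ) = (h : ℤ) + 1 - g' := by
    have : (g' : ℤ) + d = h + 1 := by exact_mod_cast hd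
    linarith
  obtain ⟨a, ha⟩ : ∃ a, a = cntp (2 * h + 1) ε' g' := ⟨_, rfl⟩
  obtain ⟨b, hb⟩ : ∃ b, b = cntm (2 * h + 1) ε' g' := ⟨_, rfl⟩
  rw [← ha, ← hb] at hW hadd
  have hab : a + b = 2 * (h : ℤ) + 1 - g' := by
    rw [hadd]
    push_cast
    ring
  have e1 : (h : ℤ) + 1 - g' - a = b - h := by linarith
  have e2 : (h : ℤ) + 1 - g' - b = a - h := by linarith
  have e3 : (h : ℤ) + 1 - g' - a - b = -(h : ℤ) := by linarith
  have hR : RR (-(h : ℤ)) = 0 := by
    unfold RR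
    have : max (-(h : ℤ)) 0 = 0 := max_eq_right (by
      have : (0 : ℤ) ≤ h := by positivity
      linarith)
    rw [this]
    ring
  rw [e3, hR, e1, e2] at hW
  rw [hdep, hW, hdz]
  ring

end Vale.Agent.Lib.P040.TP.Gen
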