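import Vale.Agent.Lib.P040.TP.Gen.WSum

namespace Vale.Agent.Lib.P040.TP.Gen

private theorem RR_succ (x : ℤ) : RR (x + 1) = RR x + 2 * max x 0 := by
  unfold RR
  rcases le_or_gt 0 x with hx | hx
  · rw [max_eq_left hx, max_eq_left (by linarith : (0 : ℤ) ≤ x + 1)]
    ring
  · rw [max_eq_right (by linarith : x ≤ 0), max_eq_right (by linarith : x + 1 ≤ 0)]
    ring

private theorem RR_pair (x : ℤ) : RR x + RR (1 - x) = x * (x - 1) := by
  unfold RR
  rcases le_or_gt x 0 with hx | hx
  · rw [max_eq_right hx, max_eq_left (by linarith : (0 : ℤ) ≤ 1 - x)]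
    ring
  · rw [max_eq_left (by linarith : (0 : ℤ) ≤ x), max_eq_right (by linarith : 1 - x ≤ 0)]
    ring

private theorem RR_nonpos {x : ℤ} (hx : x ≤ 0) : RR x = 0 := by
  unfold RR
  rw [max_eq_right hx]
  ring

private theorem RR_mono {x y : ℤ} (hxy : x ≤ y) : RR x ≤ RR y := by
  unfold RR
  have h1 : max x 0 ≤ max y 0 := max_le_max hxy le_rfl
  have h0 : (0 : ℤ) ≤ max x 0 := le_max_right _ _
  generalize max x 0 = u at h1 h0
  generalize max y 0 = v at h1
  rcases h0.lt_or_eq with hpos | hzero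
  · have hu : 1 ≤ u := hpos
    nlinarith [mul_nonneg (sub_nonneg.2 h1) (by linarith : (0 : ℤ) ≤ v + u - 1)]
  · subst hzero
    rcases h1.lt_or_eq with hp | hz
    · have hv : 1 ≤ v := hp
      nlinarith
    · subst hz
      simp

private theorem abs_eq_add_max (y : ℤ) : |y| = y + 2 * max (-y) 0 := by
  rcases le_or_gt 0 y with hy | hy
  · rw [abs_of_nonneg hy, max_eq_right (by linarith : -y ≤ 0)]
    ring
  · rw [abs_of_neg hy, max_eq_left (by linarith : (0 : ℤ) ≤ -y)]
    ring

private theorem abs_key (h a b a' b' : ℤ) (hb : 0 ≤ b) (ha' : 0 ≤ a')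
    (hb' : 0 ≤ b') (hab : h ≤ a + b) :
    |h - min h (min (a + b) (max a (h - (a' + b')))) - a'| =
      |h - a - a'| - max (a - h) 0 - max (h - (a' + b') - a) 0
        + max (h - (a' + b') - a - b) 0 := by
  have e3 : max (h - (a' + b') - a - b) 0 = 0 := max_eq_right (by linarith)
  rw [e3]
  rcases lt_or_ge a (h - (a' + b')) with h1 | h1
  · rw [max_eq_right h1.le, min_eq_right (by linarith : h - (a' + b') ≤ a + b),
      min_eq_right (by linarith : h - (a' + b') ≤ h),
      max_eq_right (by linarith : a - h ≤ 0),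
      max_eq_left (by linarith : (0 : ℤ) ≤ h - (a' + b') - a),
      abs_of_nonneg (by linarith : (0 : ℤ) ≤ h - (h - (a' + b')) - a'),
      abs_of_nonneg (by linarith : (0 : ℤ) ≤ h - a - a')]
    ring
  · rw [max_eq_left h1, min_eq_right (by linarith : a ≤ a + b),
      max_eq_right (by linarith : h - (a' + b') - a ≤ 0)]
    rcases le_or_gt a h with h2 | h2
    · rw [min_eq_right h2, max_eq_right (by linarith : a - h ≤ 0)]
      ring
    · rw [min_eq_left h2.le, max_eq_left (by linarith : (0 : ℤ) ≤ a - h),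
        abs_of_nonpos (by linarith : h - h - a' ≤ 0),
        abs_of_nonpos (by linarith : h - a - a' ≤ 0)]
      ring

private theorem step_int (h k g a b a' b' S X : ℤ) (hb : 0 ≤ b) (ha' : 0 ≤ a')
    (hb' : 0 ≤ b') (hgab : a' + b' = g) (hk : a + b = 2 * h - k) (hkh : k ≤ h)
    (hX : X = 2 * (h - min h (min (2 * h - k) (max a (h - g))) - a'))
    (hJ : ((a + 1) - b + (a' - b')) ^ 2 - ((2 * h + 1) - k - g) ^ 2
        + 2 * ((h + 1 - k) * (h - k))
        + 2 * ((h + 1 - g) * (h - g) - RR (h + 1 - g - (a + 1)) - RR (h + 1 - g - b)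
          + RR (h + 1 - g - (a + 1) - b) - RR ((a + 1) - h) - RR (b - h)) - 2 * S
        = 4 * (RR ((a + 1) + a' - h) - RR ((a + 1) - h)) + 4 * (RR (b + b' - h) - RR (b - h))) :
    (a - b + (a' - b')) ^ 2 - ((2 * h + 1) - (k + 1) - g) ^ 2
        + 2 * ((h + 1 - (k + 1)) * (h - (k + 1)))
        + 2 * ((h + 1 - g) * (h - g) - RR (h + 1 - g - a) - RR (h + 1 - g - b)
          + RR (h + 1 - g - a - b) - RR (a - h) - RR (b - h)) - 2 * (S + |X|)
        = 4 * (RR (a + a' - h) - RR (a - h)) + 4 * (RR (b + b' - h) - RR (b - h)) := by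
  subst hgab
  have hk' : k = 2 * h - a - b := by linarith
  subst hk'
  have e1 : RR ((a + 1) + a' - h) = RR (a + a' - h) + 2 * max (a + a' - h) 0 := by
    have := RR_succ (a + a' - h)
    rw [show (a + 1) + a' - h = (a + a' - h) + 1 by ring]
    exact this
  have e2 : RR ((a + 1) - h) = RR (a - h) + 2 * max (a - h) 0 := by
    have := RR_succ (a - h)
    rw [show (a + 1) - h = (a - h) + 1 by ring]
    exact this
  have e3 : RR (h + 1 - (a' + b') - a)
      = RR (h + 1 - (a' + b') - (a + 1)) + 2 * max (h - (a' + b') - a) 0 := by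
    have := RR_succ (h + 1 - (a' + b') - (a + 1))
    rw [show h + 1 - (a' + b') - (a + 1) + 1 = h + 1 - (a' + b') - a by ring,
      show h + 1 - (a' + b') - (a + 1) = h - (a' + b') - a by ring] at this
    rw [show h + 1 - (a' + b') - (a + 1) = h - (a' + b') - a by ring]
    exact this
  have e4 : RR (h + 1 - (a' + b') - a - b)
      = RR (h + 1 - (a' + b') - (a + 1) - b) + 2 * max (h - (a' + b') - a - b) 0 := by
    have := RR_succ (h + 1 - (a' + b') - (a + 1) - b)
    rw [show h + 1 - (a' + b') - (a + 1) - b + 1 = h + 1 - (a' + b') - a - b by ring,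
      show h + 1 - (a' + b') - (a + 1) - b = h - (a' + b') - a - b by ring] at this
    rw [show h + 1 - (a' + b') - (a + 1) - b = h - (a' + b') - a - b by ring]
    exact this
  have hab : h ≤ a + b := by linarith
  have key := abs_key h a b a' b' hb ha' hb' hab
  have e5 : |h - a - a'| = (h - a - a') + 2 * max (a + a' - h) 0 := by
    have := abs_eq_add_max (h - a - a')
    rw [show -(h - a - a') = a + a' - h by ring] at this
    exact this
  have e6 : |X| = 2 * |h - min h (min (a + b) (max a (h - (a' + b')))) - a'| := by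
    rw [hX, abs_mul, abs_two]
    rw [show 2 * h - (2 * h - a - b) = a + b by ring]
  rw [e6, key, e5]
  rw [e1, e2] at hJ
  rw [e3, e4]
  linarith

private theorem base_int (h g a' b' A B : ℤ) (hh : 0 ≤ h) (hgab : a' + b' = g)
    (hAB : A + B = 2 * h + 1 - g) :
    (A - B + (a' - b')) ^ 2 - ((2 * h + 1) - g - g) ^ 2 + 2 * ((h + 1 - g) * (h - g))
        + 2 * ((h + 1 - g) * (h - g) - RR (h + 1 - g - A) - RR (h + 1 - g - B)
          + RR (h + 1 - g - A - B) - RR (A - h) - RR (B - h)) - 2 * 0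
        = 4 * (RR (A + a' - h) - RR (A - h)) + 4 * (RR (B + b' - h) - RR (B - h)) := by
  have e1 : h + 1 - g - A = B - h := by linarith
  have e2 : h + 1 - g - B = A - h := by linarith
  have e3 : RR (h + 1 - g - A - B) = 0 := RR_nonpos (by linarith)
  have e4 := RR_pair (A + a' - h)
  have e5 : 1 - (A + a' - h) = B + b' - h := by linarith
  rw [e5] at e4
  rw [e3, e1, e2]
  subst hgab
  have hB : B = 2 * h + 1 - (a' + b') - A := by linarith
  subst hB
  linarith

private theorem s3_ident (h g a' b' : ℕ) (ε : ℕ → ℤ) (hε : IsSign ε) (hab : a' + b' = g)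
    (hgh : g ≤ h + 1) :
    ∀ k, g ≤ k → k ≤ h + 1 →
      (∑ l ∈ Finset.Ico k (2 * h + 1), ε l + ((a' : ℤ) - b')) ^ 2
        - ((2 * (h : ℤ) + 1) - k - g) ^ 2
        + 2 * (((h : ℤ) + 1 - k) * ((h : ℤ) - k))
        + 2 * ∑ j ∈ Finset.Ico k (2 * h + 1), omega (2 * h + 1) g ε j
        - 2 * ∑ j ∈ Finset.Ico g k,
            |((j : ℤ) - g) - ε j * (prof (2 * h + 1) g ε j + ((a' : ℤ) - b'))|
      = 4 * (RR (cntp (2 * h + 1) ε k + a' - h) - RR (cntp (2 * h + 1) ε k - h))
        + 4 * (RR (cntm (2 * h + 1) ε k + b' - h) - RR (cntm (2 * h + 1) ε k - h)) := by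
  have hgab : ((a' : ℤ) + b') = g := by exact_mod_cast hab
  intro k hk
  induction k, hk using Nat.le_induction with
  | base =>
    intro _
    rw [Finset.Ico_self, Finset.sum_empty, W_sgn h g g ε hε hgh le_rfl (by omega),
      ← cnt_sub (2 * h + 1) g ε hε]
    have hadd := cnt_add (2 * h + 1) g (by omega) ε
    push_cast at hadd
    exact base_int h g a' b' _ _ (by positivity) hgab hadd
  | succ k hgk ih =>
    intro hk1
    have ih' := ih (by omega)
    have hkn : k < 2 * h + 1 := by omega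
    have hA := cntp_step (2 * h + 1) k hkn ε
    have hB := cntm_step (2 * h + 1) k hkn ε
    have hadd := cnt_add (2 * h + 1) (k + 1) (by omega) ε
    push_cast at hadd
    have hphi := phi_count h g k ε hε hgk hkn
    rw [← cnt_sub (2 * h + 1) k ε hε, W_sgn h g k ε hε hgh hgk (by omega)] at ih'
    rw [Finset.sum_Ico_succ_top hgk, ← cnt_sub (2 * h + 1) (k + 1) ε hε,
      W_sgn h g (k + 1) ε hε hgh (by omega) (by omega)]
    push_cast
    have hkh : (k : ℤ) ≤ h := by exact_mod_cast (by omega : k ≤ h)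
    have hpn := cntp_nonneg (2 * h + 1) (k + 1) ε
    have hmn := cntm_nonneg (2 * h + 1) (k + 1) ε
    have ha'0 : (0 : ℤ) ≤ a' := by positivity
    have hb'0 : (0 : ℤ) ≤ b' := by positivity
    rcases hε k with hεk | hεk
    · -- the point k is joined on the page +1
      rw [hA, hB] at ih'
      simp only [hεk, if_true, add_zero] at ih' hphi
      have hX : ((k : ℤ) - g) - ε k * (prof (2 * h + 1) g ε k + ((a' : ℤ) - b'))
          = 2 * ((h : ℤ) - min (h : ℤ) (min (2 * (h : ℤ) - k)
              (max (cntp (2 * h + 1) ε (k + 1)) ((h : ℤ) - g))) - a') := by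
        rw [prof, hphi, hεk]
        linarith
      have hk2 : cntp (2 * h + 1) ε (k + 1) + cntm (2 * h + 1) ε (k + 1)
          = 2 * (h : ℤ) - k := by linarith
      have := step_int h k g (cntp (2 * h + 1) ε (k + 1)) (cntm (2 * h + 1) ε (k + 1)) a' b'
        (∑ j ∈ Finset.Ico g k,
          |((j : ℤ) - g) - ε j * (prof (2 * h + 1) g ε j + ((a' : ℤ) - b'))|)
        (((k : ℤ) - g) - ε k * (prof (2 * h + 1) g ε k + ((a' : ℤ) - b')))
        hmn ha'0 hb'0 hgab hk2 hkh hX (by linarith [ih'])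
      linarith [this]
    · -- the point k is joined on the page -1
      rw [hA, hB] at ih'
      have hne : ¬ ((-1 : ℤ) = 1) := by norm_num
      simp only [hεk, hne, if_false, add_zero] at ih' hphi
      have hX : ((k : ℤ) - g) - ε k * (prof (2 * h + 1) g ε k + ((a' : ℤ) - b'))
          = 2 * ((h : ℤ) - min (h : ℤ) (min (2 * (h : ℤ) - k)
              (max (cntm (2 * h + 1) ε (k + 1)) ((h : ℤ) - g))) - b') := by
        rw [prof, hphi, hεk]
        linarith
      have hk2 : cntm (2 * h + 1) ε (k + 1) + cntp (2 * h + 1) ε (k + 1)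
          = 2 * (h : ℤ) - k := by linarith
      have hgab' : ((b' : ℤ) + a') = g := by linarith
      have c1 : RR ((h : ℤ) + 1 - g - cntp (2 * h + 1) ε (k + 1)
            - (cntm (2 * h + 1) ε (k + 1) + 1))
          = RR ((h : ℤ) + 1 - g - (cntm (2 * h + 1) ε (k + 1) + 1)
            - cntp (2 * h + 1) ε (k + 1)) := congrArg RR (by ring)
      have c2 : RR ((h : ℤ) + 1 - g - cntp (2 * h + 1) ε (k + 1)
            - cntm (2 * h + 1) ε (k + 1))
          = RR ((h : ℤ) + 1 - g - cntm (2 * h + 1) ε (k + 1)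
            - cntp (2 * h + 1) ε (k + 1)) := congrArg RR (by ring)
      have := step_int h k g (cntm (2 * h + 1) ε (k + 1)) (cntp (2 * h + 1) ε (k + 1)) b' a'
        (∑ j ∈ Finset.Ico g k,
          |((j : ℤ) - g) - ε j * (prof (2 * h + 1) g ε j + ((a' : ℤ) - b'))|)
        (((k : ℤ) - g) - ε k * (prof (2 * h + 1) g ε k + ((a' : ℤ) - b')))
        hpn hb'0 ha'0 hgab' hk2 hkh hX (by linarith [ih', c1])
      linarith [this, c2]

/-- The closed-form evaluation of the zone bounds: the expression equals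
`4 (RR (c₊ + a' - h) - RR (c₊ - h)) + 4 (RR (c₋ + b' - h) - RR (c₋ - h))`, where `c₊`, `c₋` count
the two signs of `ε` among the points `g', ..., 2h`; in particular it is nonnegative. -/
theorem s3 (h g g' a' b' : ℕ) (ε : ℕ → ℤ) (hε : IsSign ε) (hab : a' + b' = g) (hg : g ≤ g')
    (hg' : g' ≤ h + 1) :
    0 ≤ (∑ l ∈ Finset.Ico g' (2 * h + 1), ε l + ((a' : ℤ) - b')) ^ 2
        - ((2 * (h : ℤ) + 1) - g' - g) ^ 2
        + 2 * (((h : ℤ) + 1 - g') * ((h : ℤ) - g'))
        + 2 * ∑ j ∈ Finset.Ico g' (2 * h + 1), omega (2 * h + 1) g ε j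
        - 2 * ∑ j ∈ Finset.Ico g g',
            |((j : ℤ) - g) - ε j * (prof (2 * h + 1) g ε j + ((a' : ℤ) - b'))| := by
  rw [s3_ident h g a' b' ε hε hab (by omega) g' hg hg']
  have h1 : RR (cntp (2 * h + 1) ε g' - h) ≤ RR (cntp (2 * h + 1) ε g' + a' - h) :=
    RR_mono (by have : (0 : ℤ) ≤ a' := by positivity
                linarith)
  have h2 : RR (cntm (2 * h + 1) ε g' - h) ≤ RR (cntm (2 * h + 1) ε g' + b' - h) :=
    RR_mono (by have : (0 : ℤ) ≤ b' := by positivity
                linarith)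
  linarith

end Vale.Agent.Lib.P040.TP.Gen
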