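import Vale.Agent.Lib.P040.TP.Gen.Defs

namespace Vale.Agent.Lib.P040.TP.Gen

/-- The crossings between the right zone of the first vertex and the left zone of the second. -/
theorem cross_rect (n g g' : ℕ) (hg' : g' ≤ n) (ε ε' : ℕ → ℤ) :
    ∑ k ∈ Finset.Ico g' n, ∑ l ∈ Finset.range g, (1 + ε k * ε' l)
      = (g : ℤ) * ((n : ℤ) - g') + (∑ k ∈ Finset.Ico g' n, ε k) * pre ε' g := by
  unfold pre
  rw [Finset.sum_mul_sum]
  simp only [Finset.sum_add_distrib, Finset.sum_const, Finset.card_range, Nat.card_Ico,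
    nsmul_eq_mul, mul_one]
  rw [Nat.cast_sub hg']
  ring

private theorem split_inner (n : ℕ) (P : ℕ → Prop) [DecidablePred P] (s : Finset ℕ)
    (F : ℕ → ℤ) (h : ∀ l, l ∈ s ↔ (l < n ∧ P l)) :
    ∑ l ∈ Finset.range n, (if P l then F l else 0) = ∑ l ∈ s, F l := by
  rw [← Finset.sum_filter]
  refine Finset.sum_congr ?_ (fun _ _ => rfl)
  ext l
  simp [h]

/-- The doubled crossing count splits into the four zones. -/
theorem cross2_split (n g g' : ℕ) (hg : g ≤ g') (hg' : g' ≤ n) (ε ε' : ℕ → ℤ) :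
    cross2 n g g' ε ε' =
      ∑ l ∈ Finset.range g, ∑ k ∈ Finset.range l, (1 + ε k * ε' l)
      + ∑ k ∈ Finset.Ico g g', ∑ l ∈ Finset.Ico g k, (1 + ε k * ε' l)
      + ∑ k ∈ Finset.Ico g' n, ∑ l ∈ Finset.Ico (k + 1) n, (1 + ε k * ε' l)
      + ∑ k ∈ Finset.Ico g' n, ∑ l ∈ Finset.range g, (1 + ε k * ε' l) := by
  unfold cross2
  have hgn : g ≤ n := le_trans hg hg'
  rw [← Finset.sum_range_add_sum_Ico _ hgn, ← Finset.sum_Ico_consecutive _ hg hg']
  have z1 : ∑ k ∈ Finset.range g, ∑ l ∈ Finset.range n,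
        (if CrossCond g g' k l then 1 + ε k * ε' l else 0)
      = ∑ l ∈ Finset.range g, ∑ k ∈ Finset.range l, (1 + ε k * ε' l) := by
    have : ∑ k ∈ Finset.range g, ∑ l ∈ Finset.range n,
        (if CrossCond g g' k l then 1 + ε k * ε' l else 0)
      = ∑ k ∈ Finset.range g, ∑ l ∈ Finset.Ico (k + 1) g, (1 + ε k * ε' l) := by
      refine Finset.sum_congr rfl fun k hk => ?_
      rw [Finset.mem_range] at hk
      refine split_inner n _ _ (fun l => 1 + ε k * ε' l) fun l => ?_
      simp only [Finset.mem_Ico, CrossCond]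
      omega
    rw [this]
    refine Finset.sum_comm' fun k l => ?_
    simp only [Finset.mem_range, Finset.mem_Ico]
    omega
  have z2 : ∑ k ∈ Finset.Ico g g', ∑ l ∈ Finset.range n,
        (if CrossCond g g' k l then 1 + ε k * ε' l else 0)
      = ∑ k ∈ Finset.Ico g g', ∑ l ∈ Finset.Ico g k, (1 + ε k * ε' l) := by
    refine Finset.sum_congr rfl fun k hk => ?_
    rw [Finset.mem_Ico] at hk
    refine split_inner n _ _ (fun l => 1 + ε k * ε' l) fun l => ?_
    simp only [Finset.mem_Ico, CrossCond]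
    omega
  have z3 : ∑ k ∈ Finset.Ico g' n, ∑ l ∈ Finset.range n,
        (if CrossCond g g' k l then 1 + ε k * ε' l else 0)
      = ∑ k ∈ Finset.Ico g' n, ∑ l ∈ Finset.Ico (k + 1) n, (1 + ε k * ε' l)
        + ∑ k ∈ Finset.Ico g' n, ∑ l ∈ Finset.range g, (1 + ε k * ε' l) := by
    rw [← Finset.sum_add_distrib]
    refine Finset.sum_congr rfl fun k hk => ?_
    rw [Finset.mem_Ico] at hk
    have hdisj : Disjoint (Finset.Ico (k + 1) n) (Finset.range g) := by
      rw [Finset.disjoint_left]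
      intro l h1 h2
      rw [Finset.mem_Ico] at h1
      rw [Finset.mem_range] at h2
      omega
    rw [← Finset.sum_union hdisj]
    refine split_inner n _ _ (fun l => 1 + ε k * ε' l) fun l => ?_
    simp only [Finset.mem_union, Finset.mem_Ico, Finset.mem_range, CrossCond]
    omega
  rw [z1, z2, z3]
  ring

end Vale.Agent.Lib.P040.TP.Gen
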