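import Vale.Agent.Lib.P040.TP.Gen.Defs

namespace Vale.Agent.Lib.P040.TP.Gen

private theorem zm_abs_sum (g j : ℕ) (ε' : ℕ → ℤ) (hε' : IsSign ε') (hgj : g ≤ j) :
    |∑ l ∈ Finset.Ico g j, ε' l| ≤ (j : ℤ) - g := by
  calc |∑ l ∈ Finset.Ico g j, ε' l| ≤ ∑ l ∈ Finset.Ico g j, |ε' l| :=
        Finset.abs_sum_le_sum_abs _ _
    _ = ∑ _l ∈ Finset.Ico g j, (1 : ℤ) := by
        refine Finset.sum_congr rfl fun l _ => ?_
        rcases hε' l with h | h <;> rw [h] <;> simp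
    _ = (j : ℤ) - g := by
        rw [Finset.sum_const, Nat.card_Ico]
        simp [Nat.cast_sub hgj]

private theorem zm_int (t u w z : ℤ) (hw : |w| ≤ t) (hz : |z| = |u + w|) :
    -|t - u| ≤ t + w - |z| := by
  rw [hz]
  have h1 := abs_le.mp hw
  rcases abs_cases (t - u) with ⟨h, _⟩ | ⟨h, _⟩ <;>
    rcases abs_cases (u + w) with ⟨h', _⟩ | ⟨h', _⟩ <;>
    rw [h, h'] <;> linarith [h1.1, h1.2]

/-- Middle zone, one column `j` (with `g ≤ j`): the second vertex is pure there, with profile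
`pre ε' j`; the first vertex has sign `e` and profile `q` in the column. -/
theorem zm_col (g j : ℕ) (ε' : ℕ → ℤ) (hε' : IsSign ε') (hgj : g ≤ j) (e q : ℤ)
    (he : e = 1 ∨ e = -1) :
    -|((j : ℤ) - g) - e * (q + pre ε' g)| ≤
      ∑ l ∈ Finset.Ico g j, (1 + e * ε' l) - |q + pre ε' j| := by
  have hpre : pre ε' j = pre ε' g + ∑ l ∈ Finset.Ico g j, ε' l := by
    unfold pre
    exact (Finset.sum_range_add_sum_Ico ε' hgj).symm
  have hW := zm_abs_sum g j ε' hε' hgj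
  have hsum : ∑ l ∈ Finset.Ico g j, (1 + e * ε' l) =
      ((j : ℤ) - g) + e * ∑ l ∈ Finset.Ico g j, ε' l := by
    rw [Finset.sum_add_distrib, ← Finset.mul_sum, Finset.sum_const, Nat.card_Ico]
    simp [Nat.cast_sub hgj]
  rw [hsum, hpre]
  refine zm_int _ _ _ _ ?_ ?_
  · rw [abs_mul]
    rcases he with h | h <;> rw [h] <;> simpa using hW
  · have : e * (q + pre ε' g) + e * ∑ l ∈ Finset.Ico g j, ε' l =
        e * (q + (pre ε' g + ∑ l ∈ Finset.Ico g j, ε' l)) := by ring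
    rw [this, abs_mul]
    rcases he with h | h <;> rw [h] <;> simp

end Vale.Agent.Lib.P040.TP.Gen
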