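import Vale.Agent.Lib.P040.TP.Gen.Defs

namespace Vale.Agent.Lib.P040.TP.Gen

/-- The inner sum of the crossing count in closed form. -/
private lemma zrt_inner (n k : ℕ) (hk : k < n) (ε ε' : ℕ → ℤ) :
    ∑ l ∈ Finset.Ico (k + 1) n, (1 + ε k * ε' l) = ((n : ℤ) - 1 - k) + ε k * suf n ε' k := by
  unfold suf
  rw [Finset.sum_add_distrib, ← Finset.mul_sum, Finset.sum_const, Nat.card_Ico, nsmul_eq_mul,
    mul_one]
  have h : ((n - (k + 1) : ℕ) : ℤ) = (n : ℤ) - 1 - k := by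
    have h1 : k + 1 ≤ n := hk
    push_cast [Nat.cast_sub h1]
    ring
  rw [h]

/-- The scalar step of the downward induction. -/
private lemma zrt_step (e e' S S' qk qk' dk β A B D : ℤ) (he : e = 1 ∨ e = -1)
    (he' : e' = 1 ∨ e' = -1)
    (ih : S ^ 2 - β ^ 2 + 2 * A ≤ 2 * (B - D)) :
    (e + S) ^ 2 - (β + 1) ^ 2
        + 2 * ((2 * (β - dk) + e * (qk - S) - |e' * (qk' - S')|) + A)
      ≤ 2 * (((β + e * S') + B) - ((2 * dk - |qk - qk'|) + D)) := by
  have habs : |e' * (qk' - S')| = |qk' - S'| := by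
    rcases he' with h | h
    · rw [h, one_mul]
    · rw [h, neg_one_mul, abs_neg]
  rw [habs]
  have h1 := le_abs_self (qk - qk')
  have h2 := le_abs_self (qk' - S')
  have h3 := neg_abs_le (qk - qk')
  have h4 := neg_abs_le (qk' - S')
  rcases he with h | h
  · rw [h]
    nlinarith
  · rw [h]
    nlinarith

/-- Right zone: both vertices see the points `k₀, ..., n-1` on their right. The inequality holds
for arbitrary column values `q`, `q'` and depths `d`. -/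
theorem zrt (n k₀ : ℕ) (hk : k₀ ≤ n) (ε ε' : ℕ → ℤ) (hε : IsSign ε) (hε' : IsSign ε')
    (q q' d : ℕ → ℤ) :
    (∑ l ∈ Finset.Ico k₀ n, ε l) ^ 2 - ((n : ℤ) - k₀) ^ 2
      + 2 * ∑ j ∈ Finset.Ico k₀ n, (2 * ((n : ℤ) - 1 - j - d j) + ε j * (q j - suf n ε j)
          - |ε' j * (q' j - suf n ε' j)|)
      ≤ 2 * (∑ k ∈ Finset.Ico k₀ n, ∑ l ∈ Finset.Ico (k + 1) n, (1 + ε k * ε' l)
        - ∑ j ∈ Finset.Ico k₀ n, (2 * d j - |q j - q' j|)) := by
  induction hk using Nat.decreasingInduction with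
  | self => simp
  | of_succ k hk ih =>
    rw [Finset.sum_eq_sum_Ico_succ_bot hk (fun l => ε l),
      Finset.sum_eq_sum_Ico_succ_bot hk (fun j => 2 * ((n : ℤ) - 1 - j - d j)
        + ε j * (q j - suf n ε j) - |ε' j * (q' j - suf n ε' j)|),
      Finset.sum_eq_sum_Ico_succ_bot hk (fun k => ∑ l ∈ Finset.Ico (k + 1) n, (1 + ε k * ε' l)),
      Finset.sum_eq_sum_Ico_succ_bot hk (fun j => 2 * d j - |q j - q' j|),
      zrt_inner n k hk ε ε']
    have hsuf : ∑ l ∈ Finset.Ico (k + 1) n, ε l = suf n ε k := rfl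
    rw [hsuf] at ih ⊢
    have hβ : (n : ℤ) - ((k + 1 : ℕ) : ℤ) = (n : ℤ) - 1 - k := by push_cast; ring
    rw [hβ] at ih
    have hβ' : (n : ℤ) - (k : ℤ) = ((n : ℤ) - 1 - k) + 1 := by ring
    rw [hβ']
    exact zrt_step (ε k) (ε' k) (suf n ε k) (suf n ε' k) (q k) (q' k) (d k) ((n : ℤ) - 1 - k)
      _ _ _ (hε k) (hε' k) ih

end Vale.Agent.Lib.P040.TP.Gen
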