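import Vale.Agent.Lib.P040.TP.Gen.ZL
import Vale.Agent.Lib.P040.TP.Gen.ZM
import Vale.Agent.Lib.P040.TP.Gen.ZRt
import Vale.Agent.Lib.P040.TP.Gen.Split
import Vale.Agent.Lib.P040.TP.Gen.S1
import Vale.Agent.Lib.P040.TP.Gen.S3
import Vale.Agent.Lib.P040.TP.Gen.Pure

namespace Vale.Agent.Lib.P040.TP.Gen

/-- The doubled agreement count splits into the three zones. -/
private theorem core_agree_split (h g g' : ℕ) (ε ε' : ℕ → ℤ) (hε : IsSign ε) (hε' : IsSign ε')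
    (hg : g ≤ g') (hg' : g' ≤ h + 1) :
    ∑ j ∈ Finset.range (2 * h + 1), agree2 (2 * h + 1) g g' ε ε' j
      = ∑ j ∈ Finset.range g, (2 * (j : ℤ) - |pre ε j - pre ε' j|)
        + ∑ j ∈ Finset.Ico g g', |prof (2 * h + 1) g ε j + pre ε' j|
        + ∑ j ∈ Finset.Ico g' (2 * h + 1),
            (2 * dcol (2 * h + 1) j - |prof (2 * h + 1) g ε j - prof (2 * h + 1) g' ε' j|) := by
  have hn : g' ≤ 2 * h + 1 := by omega
  rw [← Finset.sum_range_add_sum_Ico _ hn, ← Finset.sum_range_add_sum_Ico _ hg]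
  congr 1
  · congr 1
    · refine Finset.sum_congr rfl (fun j hj => ?_)
      have hj' : j < g := Finset.mem_range.mp hj
      unfold agree2
      rw [if_neg (by omega), prof_left_pure h g j ε hε (by omega) hj',
        prof_left_pure h g' j ε' hε' hg' (by omega), dcol_left h j (by omega)]
    · refine Finset.sum_congr rfl (fun j hj => ?_)
      obtain ⟨h1, h2⟩ := Finset.mem_Ico.mp hj
      unfold agree2
      rw [if_pos ⟨h1, h2⟩, prof_left_pure h g' j ε' hε' hg' h2]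
  · refine Finset.sum_congr rfl (fun j hj => ?_)
    obtain ⟨h1, h2⟩ := Finset.mem_Ico.mp hj
    unfold agree2
    rw [if_neg (by omega)]

/-- The middle zone, summed over its columns. -/
private theorem core_zm (h g g' : ℕ) (ε ε' : ℕ → ℤ) (hε : IsSign ε) (hε' : IsSign ε') :
    -∑ j ∈ Finset.Ico g g', |((j : ℤ) - g) - ε j * (prof (2 * h + 1) g ε j + pre ε' g)|
      ≤ ∑ k ∈ Finset.Ico g g', ∑ l ∈ Finset.Ico g k, (1 + ε k * ε' l)
        - ∑ j ∈ Finset.Ico g g', |prof (2 * h + 1) g ε j + pre ε' j| := by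
  rw [← Finset.sum_neg_distrib, ← Finset.sum_sub_distrib]
  apply Finset.sum_le_sum
  intro j hj
  exact zm_col g j ε' hε' (Finset.mem_Ico.mp hj).1 (ε j) (prof (2 * h + 1) g ε j) (hε j)

/-- The sum appearing in the right zone, evaluated with the clamp corrections. -/
private theorem core_sum_right (h g g' : ℕ) (ε ε' : ℕ → ℤ) (hε : IsSign ε) (hε' : IsSign ε')
    (hg' : g' ≤ h + 1) :
    ∑ j ∈ Finset.Ico g' (2 * h + 1),
        (2 * (((2 * h + 1 : ℕ) : ℤ) - 1 - j - dcol (2 * h + 1) j)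
          + ε j * (prof (2 * h + 1) g ε j - suf (2 * h + 1) ε j)
          - |ε' j * (prof (2 * h + 1) g' ε' j - suf (2 * h + 1) ε' j)|)
      = ((h : ℤ) + 1 - g') * ((h : ℤ) - g')
        + ∑ j ∈ Finset.Ico g' (2 * h + 1), omega (2 * h + 1) g ε j := by
  rw [← s1 h g' ε' hε' hg', ← Finset.sum_add_distrib]
  refine Finset.sum_congr rfl (fun j _ => ?_)
  have e1 : ε j * (prof (2 * h + 1) g ε j - suf (2 * h + 1) ε j)
      = omega (2 * h + 1) g ε j := by
    unfold prof omega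
    have hsq : ε j * ε j = 1 := by
      rcases hε j with h1 | h1 <;> rw [h1] <;> norm_num
    linear_combination (phi (2 * h + 1) g ε j) * hsq
  have e2 : |ε' j * (prof (2 * h + 1) g' ε' j - suf (2 * h + 1) ε' j)|
      = |omega (2 * h + 1) g' ε' j| := by
    congr 1
    unfold prof omega
    have hsq : ε' j * ε' j = 1 := by
      rcases hε' j with h1 | h1 <;> rw [h1] <;> norm_num
    linear_combination (phi (2 * h + 1) g' ε' j) * hsq
  rw [e1, e2]
  push_cast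
  ring

/-- The two-star inequality for two vertices in gaps `g ≤ g' ≤ h + 1`: agreements are at most
crossings (both doubled). -/
theorem core_half (h g g' : ℕ) (ε ε' : ℕ → ℤ) (hε : IsSign ε) (hε' : IsSign ε') (hg : g ≤ g')
    (hg' : g' ≤ h + 1) :
    ∑ j ∈ Finset.range (2 * h + 1), agree2 (2 * h + 1) g g' ε ε' j
      ≤ cross2 (2 * h + 1) g g' ε ε' := by
  have hn : g' ≤ 2 * h + 1 := by omega
  rw [core_agree_split h g g' ε ε' hε hε' hg hg', cross2_split (2 * h + 1) g g' hg hn ε ε',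
    cross_rect (2 * h + 1) g g' hn ε ε']
  have hzl := zl g ε ε' hε'
  have hzm := core_zm h g g' ε ε' hε hε'
  have hzr : (∑ l ∈ Finset.Ico g' (2 * h + 1), ε l) ^ 2 - (((2 * h + 1 : ℕ) : ℤ) - g') ^ 2
      + 2 * ∑ j ∈ Finset.Ico g' (2 * h + 1),
          (2 * (((2 * h + 1 : ℕ) : ℤ) - 1 - j - dcol (2 * h + 1) j)
            + ε j * (prof (2 * h + 1) g ε j - suf (2 * h + 1) ε j)
            - |ε' j * (prof (2 * h + 1) g' ε' j - suf (2 * h + 1) ε' j)|)
      ≤ 2 * (∑ k ∈ Finset.Ico g' (2 * h + 1), ∑ l ∈ Finset.Ico (k + 1) (2 * h + 1),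
            (1 + ε k * ε' l)
        - ∑ j ∈ Finset.Ico g' (2 * h + 1),
            (2 * dcol (2 * h + 1) j
              - |prof (2 * h + 1) g ε j - prof (2 * h + 1) g' ε' j|)) :=
    zrt (2 * h + 1) g' hn ε ε' hε hε' (fun j => prof (2 * h + 1) g ε j)
      (fun j => prof (2 * h + 1) g' ε' j) (fun j => dcol (2 * h + 1) j)
  rw [core_sum_right h g g' ε ε' hε hε' hg'] at hzr
  obtain ⟨a', b', hab, hpre⟩ := pre_counts g ε' hε'
  have hs3 := s3 h g g' a' b' ε hε hab hg hg'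
  rw [← hpre] at hs3
  obtain ⟨E, hE⟩ : ∃ E : ℤ, E = ∑ l ∈ Finset.Ico g' (2 * h + 1), ε l := ⟨_, rfl⟩
  obtain ⟨E', hE'⟩ : ∃ E' : ℤ, E' = pre ε' g := ⟨_, rfl⟩
  obtain ⟨SO, hSO⟩ : ∃ SO : ℤ,
      SO = ∑ j ∈ Finset.Ico g' (2 * h + 1), omega (2 * h + 1) g ε j := ⟨_, rfl⟩
  obtain ⟨SX, hSX⟩ : ∃ SX : ℤ, SX = ∑ j ∈ Finset.Ico g g',
      |((j : ℤ) - g) - ε j * (prof (2 * h + 1) g ε j + pre ε' g)| := ⟨_, rfl⟩
  rw [← hE, ← hSO] at hzr
  rw [← hE, ← hSO, ← hSX, ← hE'] at hs3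
  rw [← hSX] at hzm
  rw [← hE'] at hzl
  rw [← hE, ← hE']
  push_cast at hzr ⊢
  nlinarith [hzl, hzm, hzr, hs3]

end Vale.Agent.Lib.P040.TP.Gen
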