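import Vale.Agent.Lib.P040.TP.Gen.Defs

namespace Vale.Agent.Lib.P040.TP.Gen

theorem cnt_add (n k : ℕ) (hk : k ≤ n) (ε : ℕ → ℤ) :
    cntp n ε k + cntm n ε k = (n : ℤ) - k := by
  unfold cntp cntm
  rw [← Finset.sum_add_distrib]
  have h1 : ∀ l ∈ Finset.Ico k n,
      ((if ε l = 1 then (1 : ℤ) else 0) + (if ε l = 1 then 0 else 1)) = 1 := by
    intro l _
    split_ifs <;> simp
  rw [Finset.sum_congr rfl h1]
  simp [Nat.cast_sub hk]

theorem cnt_sub (n k : ℕ) (ε : ℕ → ℤ) (hε : IsSign ε) :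
    cntp n ε k - cntm n ε k = ∑ l ∈ Finset.Ico k n, ε l := by
  unfold cntp cntm
  rw [← Finset.sum_sub_distrib]
  apply Finset.sum_congr rfl
  intro l _
  rcases hε l with h | h
  · rw [h]
    simp
  · rw [h]
    simp

theorem cntp_nonneg (n k : ℕ) (ε : ℕ → ℤ) : 0 ≤ cntp n ε k := by
  unfold cntp
  apply Finset.sum_nonneg
  intro l _
  split_ifs <;> simp

theorem cntm_nonneg (n k : ℕ) (ε : ℕ → ℤ) : 0 ≤ cntm n ε k := by
  unfold cntm
  apply Finset.sum_nonneg
  intro l _
  split_ifs <;> simp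

theorem cntp_step (n k : ℕ) (hk : k < n) (ε : ℕ → ℤ) :
    cntp n ε k = cntp n ε (k + 1) + (if ε k = 1 then 1 else 0) := by
  unfold cntp
  rw [Finset.sum_eq_sum_Ico_succ_bot hk, add_comm]

theorem cntm_step (n k : ℕ) (hk : k < n) (ε : ℕ → ℤ) :
    cntm n ε k = cntm n ε (k + 1) + (if ε k = 1 then 0 else 1) := by
  unfold cntm
  rw [Finset.sum_eq_sum_Ico_succ_bot hk, add_comm]

/-- The column value of a vertex in gap `g` in a column `j` to its right, in count form:
`s` is the number of points beyond `j` joined on the same page as `j`. -/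
theorem phi_count (h g j : ℕ) (ε : ℕ → ℤ) (hε : IsSign ε) (hgj : g ≤ j) (hj : j < 2 * h + 1) :
    phi (2 * h + 1) g ε j =
      2 * min (h : ℤ) (min (2 * (h : ℤ) - j)
        (max (if ε j = 1 then cntp (2 * h + 1) ε (j + 1) else cntm (2 * h + 1) ε (j + 1))
          ((h : ℤ) - g))) - (2 * (h : ℤ) - j) := by
  have hadd := cnt_add (2 * h + 1) (j + 1) (by omega) ε
  have hp := cntp_nonneg (2 * h + 1) (j + 1) ε
  have hm := cntm_nonneg (2 * h + 1) (j + 1) ε
  have hsuf : suf (2 * h + 1) ε j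
      = cntp (2 * h + 1) ε (j + 1) - cntm (2 * h + 1) ε (j + 1) :=
    (cnt_sub (2 * h + 1) (j + 1) ε hε).symm
  unfold phi
  rw [if_pos hgj, hsuf]
  unfold dcol
  push_cast at hadd ⊢
  generalize cntp (2 * h + 1) ε (j + 1) = P at *
  generalize cntm (2 * h + 1) ε (j + 1) = Mm at *
  rcases hε j with he | he
  · rw [he]
    simp only [if_true, one_mul]
    simp only [min_def, max_def]
    split_ifs <;> omega
  · rw [he]
    have hne : ¬ ((-1 : ℤ) = 1) := by decide
    simp only [hne, if_false]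
    simp only [min_def, max_def]
    split_ifs <;> omega

/-- The clamp correction in count form. -/
theorem omega_count (h g j : ℕ) (ε : ℕ → ℤ) (hε : IsSign ε) (hgj : g ≤ j) (hj : j < 2 * h + 1) :
    omega (2 * h + 1) g ε j =
      2 * (min (h : ℤ) (min (2 * (h : ℤ) - j)
        (max (if ε j = 1 then cntp (2 * h + 1) ε (j + 1) else cntm (2 * h + 1) ε (j + 1))
          ((h : ℤ) - g)))
        - (if ε j = 1 then cntp (2 * h + 1) ε (j + 1) else cntm (2 * h + 1) ε (j + 1))) := by
  have hadd := cnt_add (2 * h + 1) (j + 1) (by omega) ε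
  have hsuf : suf (2 * h + 1) ε j
      = cntp (2 * h + 1) ε (j + 1) - cntm (2 * h + 1) ε (j + 1) :=
    (cnt_sub (2 * h + 1) (j + 1) ε hε).symm
  unfold omega
  rw [phi_count h g j ε hε hgj hj, hsuf]
  push_cast at hadd
  rcases hε j with he | he
  · rw [he]
    simp only [if_true, one_mul]
    linarith
  · rw [he]
    have hne : ¬ ((-1 : ℤ) = 1) := by decide
    simp only [hne, if_false]
    linarith

end Vale.Agent.Lib.P040.TP.Gen
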