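import Vale.Agent.Lib.P040.TP.Defs

/-!
# Two-page drawings: the closed-form cut certificate for an odd number of second-class points

Second-class points sit at ranks `0, ..., n-1`, with `n = 2h+1`. A first-class vertex is described
by its gap `g` (the number of second-class points to its left) and a sign sequence `ε`
(`ε j = 1` or `-1`: the page of its edge to point `j`). Column `j` has depth
`dcol n j = min j (n-1-j)`. The profile of the vertex in column `j` is
`prof n g ε j = ε j * phi n g ε j`, where `phi` is the signed count of the edges to the points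
beyond point `j` (away from the vertex), clamped between a floor and the depth of the column.
-/

namespace Vale.Agent.Lib.P040.TP.Gen

/-- Sign sequences. -/
def IsSign (ε : ℕ → ℤ) : Prop := ∀ j, ε j = 1 ∨ ε j = -1

/-- Depth of column `j`. -/
def dcol (n j : ℕ) : ℤ := min (j : ℤ) ((n : ℤ) - 1 - j)

/-- Sum of the signs of the points to the right of point `j`. -/
def suf (n : ℕ) (ε : ℕ → ℤ) (j : ℕ) : ℤ := ∑ l ∈ Finset.Ico (j + 1) n, ε l

/-- Sum of the signs of the points to the left of point `j`. -/
def pre (ε : ℕ → ℤ) (j : ℕ) : ℤ := ∑ l ∈ Finset.range j, ε l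

/-- The clamped signed count in column `j` for a vertex in gap `g`. -/
def phi (n g : ℕ) (ε : ℕ → ℤ) (j : ℕ) : ℤ :=
  if g ≤ j then min (dcol n j) (max (ε j * suf n ε j) ((j : ℤ) - 2 * g))
  else min (dcol n j) (max (ε j * pre ε j) (2 * (g : ℤ) - n - 1 - j))

/-- The centered profile in column `j` for a vertex in gap `g`. -/
def prof (n g : ℕ) (ε : ℕ → ℤ) (j : ℕ) : ℤ := ε j * phi n g ε j

/-- Clamp correction of a vertex in gap `g` in a column `j` to its right. -/
def omega (n g : ℕ) (ε : ℕ → ℤ) (j : ℕ) : ℤ := phi n g ε j - ε j * suf n ε j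

/-- Twice the number of cells of column `j` on which two vertices (gaps `g ≤ g'`) agree. -/
def agree2 (n g g' : ℕ) (ε ε' : ℕ → ℤ) (j : ℕ) : ℤ :=
  if g ≤ j ∧ j < g' then |prof n g ε j + prof n g' ε' j|
  else 2 * dcol n j - |prof n g ε j - prof n g' ε' j|

/-- Twice the number of crossings between the stars of two vertices (gaps `g ≤ g'`). -/
def cross2 (n g g' : ℕ) (ε ε' : ℕ → ℤ) : ℤ :=
  ∑ k ∈ Finset.range n, ∑ l ∈ Finset.range n,
    if CrossCond g g' k l then 1 + ε k * ε' l else 0

/-- Number of `+1` signs among the points `k, ..., n-1`. -/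
def cntp (n : ℕ) (ε : ℕ → ℤ) (k : ℕ) : ℤ := ∑ l ∈ Finset.Ico k n, if ε l = 1 then 1 else 0

/-- Number of signs other than `+1` among the points `k, ..., n-1`. -/
def cntm (n : ℕ) (ε : ℕ → ℤ) (k : ℕ) : ℤ := ∑ l ∈ Finset.Ico k n, if ε l = 1 then 0 else 1

/-- `R x = x⁺ (x⁺ - 1)`, twice the binomial coefficient of the positive part. -/
def RR (x : ℤ) : ℤ := max x 0 * (max x 0 - 1)

/-- Sign of a page. -/
def sgn (b : Bool) : ℤ := if b then 1 else -1

/-- Sign sequence of a page vector. -/
def ext (n : ℕ) (x : Fin n → Bool) : ℕ → ℤ :=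
  fun j => if hj : j < n then sgn (x ⟨j, hj⟩) else 1

/-- The cells: column `j` has `min j (n-1-j)` cells. -/
abbrev Cell (n : ℕ) : Type := Σ j : Fin n, Fin (min j.val (n - 1 - j.val))

/-- The bit of a vertex (gap `g`, pages `x`) on a cell: a threshold on the profile, read from
the bottom of the column when the point is to the right of the vertex and from the top when it
is to the left. -/
def bit (n g : ℕ) (x : Fin n → Bool) (c : Cell n) : Bool :=
  if g ≤ c.1.val then
    decide (2 * ((c.2.val : ℤ) + 1) ≤ prof n g (ext n x) c.1.val + dcol n c.1.val)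
  else
    decide (2 * (dcol n c.1.val - (c.2.val : ℤ)) ≤ prof n g (ext n x) c.1.val + dcol n c.1.val)

end Vale.Agent.Lib.P040.TP.Gen
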