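import Vale.Agent.Lib.P040.TP.Gen.Pure

/-!
# Vertices at the two ends of the spine

A vertex in gap `0` and a vertex in gap `n` with the same signs have the same profile and the
same crossings with every other vertex (up to the order of the pair).
-/

namespace Vale.Agent.Lib.P040.TP.Gen

/-- For a sign `e` and `|p| ≤ d`: `|e d + p| = 2 d - |p - e d|`. -/
private lemma endsA_abs_key (e d p : ℤ) (he : e = 1 ∨ e = -1) (hp : |p| ≤ d) :
    |e * d + p| = 2 * d - |p - e * d| := by
  have hb := abs_le.mp hp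
  rcases he with rfl | rfl
  · rw [abs_of_nonneg (by linarith : (0 : ℤ) ≤ 1 * d + p),
      abs_of_nonpos (by linarith : p - 1 * d ≤ 0)]
    ring
  · rw [abs_of_nonpos (by linarith : -1 * d + p ≤ 0),
      abs_of_nonneg (by linarith : (0 : ℤ) ≤ p - -1 * d)]
    ring

/-- The profile of a vertex in gap `0` is extremal in every column. -/
private lemma endsA_prof_zero (h j : ℕ) (ε : ℕ → ℤ) :
    prof (2 * h + 1) 0 ε j = ε j * dcol (2 * h + 1) j := by
  unfold prof phi
  rw [if_pos (Nat.zero_le j)]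
  congr 1
  obtain ⟨s, hs⟩ : ∃ s, s = ε j * suf (2 * h + 1) ε j := ⟨_, rfl⟩
  rw [← hs]
  unfold dcol
  push_cast
  omega

/-- The profile of a vertex in the last gap is extremal in every column. -/
private lemma endsA_prof_top (h j : ℕ) (ε : ℕ → ℤ) (hj : j < 2 * h + 1) :
    prof (2 * h + 1) (2 * h + 1) ε j = ε j * dcol (2 * h + 1) j := by
  unfold prof phi
  rw [if_neg (show ¬(2 * h + 1 ≤ j) by omega)]
  congr 1
  obtain ⟨s, hs⟩ : ∃ s, s = ε j * pre ε j := ⟨_, rfl⟩
  rw [← hs]
  unfold dcol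
  push_cast
  omega

/-- A vertex in gap `0` against a vertex in gap `g'` agrees, column by column, as a vertex in gap
`n` (same signs) does, with the order of the pair exchanged. -/
theorem agree2_zero_swap (h g' : ℕ) (ε ε' : ℕ → ℤ) (hε : IsSign ε) (hε' : IsSign ε')
    (hg' : g' ≤ 2 * h + 1) (j : ℕ) (hj : j < 2 * h + 1) :
    agree2 (2 * h + 1) 0 g' ε ε' j = agree2 (2 * h + 1) g' (2 * h + 1) ε' ε j := by
  have _hg := hg'
  obtain ⟨hp, -⟩ := prof_bound h g' j ε' hε' hj
  have key := endsA_abs_key (ε j) (dcol (2 * h + 1) j) (prof (2 * h + 1) g' ε' j) (hε j) hp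
  unfold agree2
  rw [endsA_prof_zero h j ε, endsA_prof_top h j ε hj]
  by_cases hjg : j < g'
  · rw [if_pos (show 0 ≤ j ∧ j < g' from ⟨Nat.zero_le j, hjg⟩),
      if_neg (show ¬(g' ≤ j ∧ j < 2 * h + 1) by omega)]
    exact key
  · rw [if_neg (show ¬(0 ≤ j ∧ j < g') by omega),
      if_pos (show g' ≤ j ∧ j < 2 * h + 1 from ⟨by omega, hj⟩)]
    rw [abs_sub_comm, add_comm (prof (2 * h + 1) g' ε' j), key]

end Vale.Agent.Lib.P040.TP.Gen
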