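import Vale.Agent.Lib.P040.TP.Gen.Defs

namespace Vale.Agent.Lib.P040.TP.Gen

/-- A vertex in gap `0` against a vertex in gap `g'` has the same doubled crossing count as a
vertex in gap `n` (same signs), with the order of the pair exchanged. -/
theorem cross_zero_swap (n g' : ℕ) (ε ε' : ℕ → ℤ) (hg' : g' ≤ n) :
    cross2 n 0 g' ε ε' = cross2 n g' n ε' ε := by
  unfold cross2
  rw [Finset.sum_comm (s := Finset.range n) (t := Finset.range n)
    (f := fun k l => if CrossCond g' n k l then 1 + ε' k * ε l else 0)]
  refine Finset.sum_congr rfl fun k hk => Finset.sum_congr rfl fun l hl => ?_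
  have hk' : k < n := Finset.mem_range.mp hk
  have hl' : l < n := Finset.mem_range.mp hl
  have hgn : g' ≤ n := hg'
  have hiff : CrossCond 0 g' k l ↔ CrossCond g' n l k := by
    unfold CrossCond
    omega
  by_cases h : CrossCond 0 g' k l
  · rw [if_pos h, if_pos (hiff.mp h), mul_comm]
  · rw [if_neg h, if_neg (fun h2 => h (hiff.mpr h2))]

end Vale.Agent.Lib.P040.TP.Gen
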