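import Vale.Agent.Lib.P040.TP.Gen.Mirror
import Vale.Agent.Lib.P040.TP.Gen.EndsA
import Vale.Agent.Lib.P040.TP.Gen.EndsC

namespace Vale.Agent.Lib.P040.TP.Gen

/-- The two-star inequality when the first vertex is at the left end of the spine. -/
theorem core_zero (h g' : ℕ) (ε ε' : ℕ → ℤ) (hε : IsSign ε) (hε' : IsSign ε')
    (hg' : g' ≤ 2 * h + 1) :
    ∑ j ∈ Finset.range (2 * h + 1), agree2 (2 * h + 1) 0 g' ε ε' j
      ≤ cross2 (2 * h + 1) 0 g' ε ε' := by
  by_cases hc : g' ≤ h + 1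
  · exact core_half h 0 g' ε ε' hε hε' (Nat.zero_le g') hc
  · have hsum : ∑ j ∈ Finset.range (2 * h + 1), agree2 (2 * h + 1) 0 g' ε ε' j
        = ∑ j ∈ Finset.range (2 * h + 1), agree2 (2 * h + 1) g' (2 * h + 1) ε' ε j := by
      refine Finset.sum_congr rfl ?_
      intro j hj
      exact agree2_zero_swap h g' ε ε' hε hε' hg' j (Finset.mem_range.mp hj)
    rw [hsum, cross_zero_swap (2 * h + 1) g' ε ε' hg']
    exact core_mirror h g' (2 * h + 1) ε' ε hε' hε hg' (by omega) (le_refl _)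

/-- The two-star inequality when the second vertex is at the right end of the spine. -/
theorem core_top (h g : ℕ) (ε ε' : ℕ → ℤ) (hε : IsSign ε) (hε' : IsSign ε')
    (hg : g ≤ 2 * h + 1) :
    ∑ j ∈ Finset.range (2 * h + 1), agree2 (2 * h + 1) g (2 * h + 1) ε ε' j
      ≤ cross2 (2 * h + 1) g (2 * h + 1) ε ε' := by
  by_cases hc : h ≤ g
  · exact core_mirror h g (2 * h + 1) ε ε' hε hε' hg hc (le_refl _)
  · have hsum : ∑ j ∈ Finset.range (2 * h + 1), agree2 (2 * h + 1) g (2 * h + 1) ε ε' j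
        = ∑ j ∈ Finset.range (2 * h + 1), agree2 (2 * h + 1) 0 g ε' ε j := by
      refine Finset.sum_congr rfl ?_
      intro j hj
      exact (agree2_zero_swap h g ε' ε hε' hε hg j (Finset.mem_range.mp hj)).symm
    rw [hsum, ← cross_zero_swap (2 * h + 1) g ε' ε hg]
    exact core_half h 0 g ε' ε hε' hε (Nat.zero_le g) (by omega)

end Vale.Agent.Lib.P040.TP.Gen
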