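import Vale.Agent.Lib.P040.TP.Gen.Pure

/-!
# Mirror symmetry of the agreement count

Reflecting the spine (`j ↦ n-1-j`) maps a vertex in gap `g` with signs `ε` to a vertex in gap
`n-g` with the reversed signs, and exchanges the roles of the two vertices.
-/

namespace Vale.Agent.Lib.P040.TP.Gen

/-- The reversed sign sequence. -/
def rev (n : ℕ) (ε : ℕ → ℤ) : ℕ → ℤ := fun j => ε (n - 1 - j)

theorem rev_isSign (n : ℕ) (ε : ℕ → ℤ) (hε : IsSign ε) : IsSign (rev n ε) := by
  intro j
  exact hε (n - 1 - j)

/-- Depth of the reflected column. -/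
theorem dcol_mirror (n j : ℕ) (hj : j < n) : dcol n (n - 1 - j) = dcol n j := by
  unfold dcol
  have h1 : ((n - 1 - j : ℕ) : ℤ) = (n : ℤ) - 1 - j := by omega
  rw [h1, min_comm]
  congr 1
  ring

/-- The reversed sequence at the reflected point. -/
private lemma mirrorA_rev_apply (n : ℕ) (ε : ℕ → ℤ) (j : ℕ) (hj : j < n) :
    rev n ε (n - 1 - j) = ε j := by
  unfold rev
  congr 1
  omega

/-- The left sum of the reversed sequence is the right sum of the sequence. -/
private lemma mirrorA_pre_rev (n : ℕ) (ε : ℕ → ℤ) (j : ℕ) (hj : j < n) :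
    pre (rev n ε) (n - 1 - j) = suf n ε j := by
  unfold pre suf rev
  refine Finset.sum_nbij' (fun l => n - 1 - l) (fun m => n - 1 - m) ?_ ?_ ?_ ?_ ?_
  · intro l hl
    simp only [Finset.mem_range] at hl
    simp only [Finset.mem_Ico]
    omega
  · intro m hm
    simp only [Finset.mem_Ico] at hm
    simp only [Finset.mem_range]
    omega
  · intro l hl
    simp only [Finset.mem_range] at hl
    omega
  · intro m hm
    simp only [Finset.mem_Ico] at hm
    omega
  · intro l _
    rfl

/-- The right sum of the reversed sequence is the left sum of the sequence. -/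
private lemma mirrorA_suf_rev (n : ℕ) (ε : ℕ → ℤ) (j : ℕ) (hj : j < n) :
    suf n (rev n ε) (n - 1 - j) = pre ε j := by
  unfold pre suf rev
  refine Finset.sum_nbij' (fun l => n - 1 - l) (fun m => n - 1 - m) ?_ ?_ ?_ ?_ ?_
  · intro l hl
    simp only [Finset.mem_Ico] at hl
    simp only [Finset.mem_range]
    omega
  · intro m hm
    simp only [Finset.mem_range] at hm
    simp only [Finset.mem_Ico]
    omega
  · intro l hl
    simp only [Finset.mem_Ico] at hl
    omega
  · intro m hm
    simp only [Finset.mem_range] at hm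
    omega
  · intro l _
    rfl

/-- The clamped count of the reflected vertex in the reflected column. -/
private lemma mirrorA_phi (n g : ℕ) (ε : ℕ → ℤ) (hg : g ≤ n) (j : ℕ) (hj : j < n) :
    phi n (n - g) (rev n ε) (n - 1 - j) = phi n g ε j := by
  have hc1 : ((n - 1 - j : ℕ) : ℤ) = (n : ℤ) - 1 - j := by omega
  have hc2 : ((n - g : ℕ) : ℤ) = (n : ℤ) - g := by omega
  unfold phi
  rw [dcol_mirror n j hj, mirrorA_rev_apply n ε j hj]
  by_cases h : g ≤ j
  · have h' : ¬ (n - g ≤ n - 1 - j) := by omega
    rw [if_neg h', if_pos h, mirrorA_pre_rev n ε j hj, hc1, hc2]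
    congr 2
    ring
  · have h' : n - g ≤ n - 1 - j := by omega
    rw [if_pos h', if_neg h, mirrorA_suf_rev n ε j hj, hc1, hc2]
    congr 2
    ring

/-- The profile of the reflected vertex in the reflected column. -/
theorem prof_mirror (n g : ℕ) (ε : ℕ → ℤ) (hg : g ≤ n) (j : ℕ) (hj : j < n) :
    prof n (n - g) (rev n ε) (n - 1 - j) = prof n g ε j := by
  unfold prof
  rw [mirrorA_phi n g ε hg j hj, mirrorA_rev_apply n ε j hj]

/-- Column by column, the doubled agreement count is invariant under the reflection. -/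
theorem agree2_mirror (n g g' : ℕ) (ε ε' : ℕ → ℤ) (hg : g ≤ g') (hg' : g' ≤ n) (j : ℕ)
    (hj : j < n) :
    agree2 n g g' ε ε' j = agree2 n (n - g') (n - g) (rev n ε') (rev n ε) (n - 1 - j) := by
  unfold agree2
  rw [prof_mirror n g' ε' hg' j hj, prof_mirror n g ε (le_trans hg hg') j hj,
    dcol_mirror n j hj]
  by_cases h : g ≤ j ∧ j < g'
  · have h' : n - g' ≤ n - 1 - j ∧ n - 1 - j < n - g := by omega
    rw [if_pos h, if_pos h', add_comm]
  · have h' : ¬ (n - g' ≤ n - 1 - j ∧ n - 1 - j < n - g) := by omega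
    rw [if_neg h, if_neg h', abs_sub_comm]

/-- The doubled agreement count is invariant under the reflection. -/
theorem agree_mirror (n g g' : ℕ) (ε ε' : ℕ → ℤ) (hg : g ≤ g') (hg' : g' ≤ n) :
    ∑ j ∈ Finset.range n, agree2 n g g' ε ε' j =
      ∑ j ∈ Finset.range n, agree2 n (n - g') (n - g) (rev n ε') (rev n ε) j := by
  rw [← Finset.sum_range_reflect
    (fun j => agree2 n (n - g') (n - g) (rev n ε') (rev n ε) j) n]
  apply Finset.sum_congr rfl
  intro j hj
  exact agree2_mirror n g g' ε ε' hg hg' j (Finset.mem_range.mp hj)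

end Vale.Agent.Lib.P040.TP.Gen
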