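import Mathlib

/-!
# Two-page drawings, far straddling pairs: the state potential (closed forms)

All quantities are doubled. `T2 k = k⁺ (k⁺ + 1)` is twice the triangular number of the positive
part of `k`; `Rc2 B C n` is twice the number of lattice points `(i, i')` with `1 ≤ i ≤ B`,
`1 ≤ i' ≤ C`, `i + i' ≤ n` (for `0 ≤ B`; the box is empty when `C ≤ 0`).

State of the sweep before column `j` (left half, `g ≤ j`): `Y`, `Q` with `Y + Q = j + 1`
(the plus and minus counts of the first vertex from column `j` on, minus `h - j`), and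
`xp`, `xm` with `xp + xm = j - g` (the plus and minus counts of the second vertex on the columns
`g, ..., j - 1`); `a`, `b` (`a + b = g`) are the plus and minus counts of the second vertex to
the left of the first vertex; `om` is the number of window columns passed so far.
-/

namespace Vale.Agent.Lib.P040.TP.Gen.Far

/-- `T2 k = k⁺ (k⁺ + 1)`. -/
def T2 (k : ℤ) : ℤ := max k 0 * (max k 0 + 1)

/-- Twice the number of lattice points `(i, i')` in `[1, B] × [1, C]` with `i + i' ≤ n`. -/
def Rc2 (B C n : ℤ) : ℤ :=
  T2 (n - 1) - T2 (n - 1 - B) - T2 (n - 1 - max C 0) + T2 (n - 1 - B - max C 0)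

/-- Twice the pure part of the potential. -/
def Ph1 (g Y Q xp xm : ℤ) : ℤ :=
  -2 * xp * xm - 2 * (Y - xm) * (Y - xm - g - 1) - T2 g + 2 * T2 (xm - Y)
    + 2 * T2 (Y - xm - g - 1) + T2 (g - Y) - T2 (-Y) + T2 (g - Q) - T2 (-Q)

/-- Twice the potential of a state. -/
def Pot (g a b om Y Q xp xm : ℤ) : ℤ :=
  Ph1 g Y Q xp xm + T2 om - T2 (om - a - xp) - T2 (om - b - xm)
    - 2 * Rc2 b (om + 1 - Y) (om + 1 - xm) - 2 * Rc2 a (om + 1 - Q) (om + 1 - xp)

/-- Clamp of `x` to the interval `[lo, hi]`. -/
def clampZ (x lo hi : ℤ) : ℤ := max lo (min hi x)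

/-- Twice the cost of column `j` (window index `m = j - θ'`) with signs `η` (first vertex) and
`η'` (second vertex): crossings of the column with the earlier columns minus agreements. -/
def cost2 (g a b j m Y Q xp xm η η' : ℤ) : ℤ :=
  if η = 1 then
    if η' = 1 then 2 * xp - 2 * |j - clampZ Q 0 g - min (b + xm) (max m 0)|
    else 2 * xp - 2 * |clampZ Q 0 g - min (a + xp) (max m 0)|
  else
    if η' = 1 then 2 * xm - 2 * |clampZ Y 0 g - min (b + xm) (max m 0)|
    else 2 * xm - 2 * |j - clampZ Y 0 g - min (a + xp) (max m 0)|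

end Vale.Agent.Lib.P040.TP.Gen.Far
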