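import Vale.Agent.Lib.P040.TP.Reduce
import Vale.Agent.Lib.P040.TP.Succ

namespace Vale.Agent.Lib.P040.TP.Gen

open Vale.Agent.Lib.P040.TP

open Finset in
/-- The reduction for sorted second-class points, restricted to drawings in which every
first-class vertex has at most `G₀` second-class points to its left. -/
private theorem reduce_sorted_le (n D G₀ : ℕ) (σ : ℕ → (Fin n → Bool) → Fin D → Bool)
    (hcert : ∀ (g g' : ℕ) (x x' : Fin n → Bool), g ≤ g' → g' ≤ G₀ →
      ((Finset.univ : Finset (Fin D)).filter (fun k => σ g x k = σ g' x' k)).card ≤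
        ((Finset.univ : Finset (Fin n × Fin n)).filter
          (fun p => CrossCond g g' p.1 p.2 ∧ x p.1 = x' p.2)).card)
    (m : ℕ) (r : Fin m → ℝ) (b : Fin n → ℝ) (page : Fin m → Fin n → Bool)
    (hr : Function.Injective r) (hb : StrictMono b) (hrb : ∀ i j, r i ≠ b j)
    (hleft : ∀ i, ((Finset.univ : Finset (Fin n)).filter (fun t => b t < r i)).card ≤ G₀) :
    D * ((m / 2) * ((m - 1) / 2)) ≤
      Set.ncard {p : (Fin m × Fin n) × (Fin m × Fin n) |
        p.1.1 < p.2.1 ∧ p.1.2 ≠ p.2.2 ∧ page p.1.1 p.1.2 = page p.2.1 p.2.2 ∧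
          Interleave (r p.1.1) (b p.1.2) (r p.2.1) (b p.2.2)} := by
  classical
  set g : Fin m → ℕ := fun i => (univ.filter (fun t => b t < r i)).card with hg
  set A : Fin m → Fin m → ℕ := fun i i' =>
    (univ.filter (fun q : Fin n × Fin n => q.1 ≠ q.2 ∧ page i q.1 = page i' q.2 ∧
      Interleave (r i) (b q.1) (r i') (b q.2))).card with hA
  have hgn : ∀ i, g i ≤ G₀ := fun i => hleft i
  have hgmono : ∀ i i', r i < r i' → g i ≤ g i' := fun i i' h => by
    apply Finset.card_le_card
    intro t ht
    simp only [mem_filter, mem_univ, true_and] at ht ⊢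
    exact ht.trans h
  have hstep : ∀ i i', i < i' →
      (univ.filter (fun k => σ (g i) (page i) k = σ (g i') (page i') k)).card ≤ A i i' := by
    intro i i' hii
    have hne : r i ≠ r i' := fun h => (ne_of_lt hii) (hr h)
    rcases lt_or_gt_of_ne hne with hlt | hgt
    · refine le_trans (hcert (g i) (g i') (page i) (page i') (hgmono i i' hlt) (hgn i')) ?_
      apply Finset.card_le_card
      intro q hq
      simp only [mem_filter, mem_univ, true_and] at hq ⊢
      have hq12 : q.1 ≠ q.2 := fun h =>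
        reduce_crossCond_ne (hgmono i i' hlt) hq.1 (congrArg Fin.val h)
      exact ⟨hq12, hq.2,
        (interleave_iff_crossCond n b hb (r i) (r i') hlt (hrb i) (hrb i') q.1 q.2 hq12).2 hq.1⟩
    · have h1 := hcert (g i') (g i) (page i') (page i) (hgmono i' i hgt) (hgn i)
      have heq : (univ.filter (fun k => σ (g i) (page i) k = σ (g i') (page i') k)) =
          (univ.filter (fun k => σ (g i') (page i') k = σ (g i) (page i) k)) := by
        apply Finset.filter_congr
        intro k _
        exact eq_comm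
      rw [heq]
      refine le_trans h1 ?_
      apply Finset.card_le_card_of_injOn Prod.swap
      · intro p hp
        simp only [Finset.mem_coe, mem_filter, mem_univ, true_and, Prod.fst_swap,
          Prod.snd_swap] at hp ⊢
        have hp12 : p.1 ≠ p.2 := fun h =>
          reduce_crossCond_ne (hgmono i' i hgt) hp.1 (congrArg Fin.val h)
        have hI : Interleave (r i') (b p.1) (r i) (b p.2) :=
          (interleave_iff_crossCond n b hb (r i') (r i) hgt (hrb i') (hrb i) p.1 p.2 hp12).2 hp.1
        refine ⟨fun h => hp12 h.symm, hp.2.symm, ?_⟩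
        exact (interleave_symm (r i) (b p.2) (r i') (b p.1) hne (hrb i p.1)
          (fun h => hrb i' p.2 h.symm) (fun h => hp12 (hb.injective h).symm) (hrb i p.2)
          (hrb i' p.1)).2 hI
      · exact Prod.swap_injective.injOn
  have hsum := sum_cuts m D (fun i => σ (g i) (page i)) A hstep
  refine le_trans hsum ?_
  set T : Finset ((Fin m × Fin n) × (Fin m × Fin n)) :=
    univ.filter (fun p => p.1.1 < p.2.1 ∧ p.1.2 ≠ p.2.2 ∧ page p.1.1 p.1.2 = page p.2.1 p.2.2 ∧
      Interleave (r p.1.1) (b p.1.2) (r p.2.1) (b p.2.2)) with hT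
  have hS : {p : (Fin m × Fin n) × (Fin m × Fin n) |
      p.1.1 < p.2.1 ∧ p.1.2 ≠ p.2.2 ∧ page p.1.1 p.1.2 = page p.2.1 p.2.2 ∧
        Interleave (r p.1.1) (b p.1.2) (r p.2.1) (b p.2.2)} = ↑T := by
    ext p
    simp only [hT, coe_filter, mem_univ, true_and]
  rw [hS, Set.ncard_coe_finset]
  have hmaps : Set.MapsTo (fun p : (Fin m × Fin n) × (Fin m × Fin n) => (p.1.1, p.2.1)) ↑T
      ↑(univ.filter (fun p : Fin m × Fin m => p.1 < p.2)) := by
    intro p hp
    simp only [hT, coe_filter, mem_univ, true_and, Set.mem_ofPred_eq] at hp ⊢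
    exact hp.1
  rw [Finset.card_eq_sum_card_fiberwise hmaps]
  apply Finset.sum_le_sum
  intro p hp
  simp only [mem_filter, mem_univ, true_and] at hp
  apply Finset.card_le_card_of_injOn (fun q : Fin n × Fin n => ((p.1, q.1), (p.2, q.2)))
  · intro q hq
    simp only [hT, Finset.mem_coe, mem_filter, mem_univ, true_and] at hq ⊢
    exact ⟨⟨hp, hq.1, hq.2.1, hq.2.2⟩, trivial⟩
  · intro q1 _ q2 _ h
    simp only [Prod.mk.injEq, true_and] at h
    exact Prod.ext h.1 h.2

/-- The generic reduction restricted to drawings in which every first-class vertex has at most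
`G₀` second-class points to its left: the certificate is only needed for gaps `g ≤ g' ≤ G₀`. -/
theorem twoPage_of_cert_le (n D G₀ : ℕ) (σ : ℕ → (Fin n → Bool) → Fin D → Bool)
    (hcert : ∀ (g g' : ℕ) (x x' : Fin n → Bool), g ≤ g' → g' ≤ G₀ →
      ((Finset.univ : Finset (Fin D)).filter (fun k => σ g x k = σ g' x' k)).card ≤
        ((Finset.univ : Finset (Fin n × Fin n)).filter
          (fun p => CrossCond g g' p.1 p.2 ∧ x p.1 = x' p.2)).card)
    (m : ℕ) (r : Fin m → ℝ) (b : Fin n → ℝ) (page : Fin m → Fin n → Bool)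
    (hr : Function.Injective r) (hb : Function.Injective b) (hrb : ∀ i j, r i ≠ b j)
    (hleft : ∀ i, ((Finset.univ : Finset (Fin n)).filter (fun t => b t < r i)).card ≤ G₀) :
    D * ((m / 2) * ((m - 1) / 2)) ≤
      Set.ncard {p : (Fin m × Fin n) × (Fin m × Fin n) |
        p.1.1 < p.2.1 ∧ p.1.2 ≠ p.2.2 ∧ page p.1.1 p.1.2 = page p.2.1 p.2.2 ∧
          Interleave (r p.1.1) (b p.1.2) (r p.2.1) (b p.2.2)} := by
  classical
  set e : Equiv.Perm (Fin n) := Tuple.sort b with he
  have hmono : StrictMono (b ∘ e) :=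
    (Tuple.monotone_sort b).strictMono_of_injective (hb.comp e.injective)
  have hleft' : ∀ i, ((Finset.univ : Finset (Fin n)).filter
      (fun t => (b ∘ e) t < r i)).card ≤ G₀ := by
    intro i
    refine le_trans (le_of_eq ?_) (hleft i)
    apply Finset.card_bij (fun t _ => e t)
    · intro t ht
      simp only [Finset.mem_filter, Finset.mem_univ, true_and, Function.comp_apply] at ht ⊢
      exact ht
    · intro t1 _ t2 _ h
      exact e.injective h
    · intro t ht
      simp only [Finset.mem_filter, Finset.mem_univ, true_and] at ht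
      refine ⟨e.symm t, ?_, ?_⟩
      · simp only [Finset.mem_filter, Finset.mem_univ, true_and, Function.comp_apply,
          Equiv.apply_symm_apply]
        exact ht
      · exact Equiv.apply_symm_apply e t
  have h := reduce_sorted_le n D G₀ σ hcert m r (b ∘ e) (fun i j => page i (e j)) hr hmono
    (fun i j => hrb i (e j)) hleft'
  refine le_trans h ?_
  set Φ : (Fin m × Fin n) × (Fin m × Fin n) → (Fin m × Fin n) × (Fin m × Fin n) :=
    fun p => ((p.1.1, e p.1.2), (p.2.1, e p.2.2)) with hΦ
  have hinj : Function.Injective Φ := by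
    intro p q hpq
    simp only [hΦ, Prod.mk.injEq, EmbeddingLike.apply_eq_iff_eq] at hpq
    exact Prod.ext (Prod.ext hpq.1.1 hpq.1.2) (Prod.ext hpq.2.1 hpq.2.2)
  rw [← Set.ncard_image_of_injective _ hinj]
  apply Set.ncard_le_ncard _ (Set.toFinite _)
  rintro _ ⟨p, hp, rfl⟩
  simp only [Set.mem_ofPred_eq, Function.comp_apply] at hp ⊢
  exact ⟨hp.1, fun h => hp.2.1 (e.injective h), hp.2.2.1, hp.2.2.2⟩

/-- From `n` to `n + 1` points by deleting one point at a time, within the class of drawings in
which every first-class vertex has at most `G₀` second-class points to its left. -/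
theorem twoPage_succ_le (n D G₀ : ℕ)
    (h : ∀ (m : ℕ) (r : Fin m → ℝ) (b : Fin n → ℝ) (page : Fin m → Fin n → Bool),
      Function.Injective r → Function.Injective b → (∀ i j, r i ≠ b j) →
      (∀ i, ((Finset.univ : Finset (Fin n)).filter (fun t => b t < r i)).card ≤ G₀) →
      D * ((m / 2) * ((m - 1) / 2)) ≤
        Set.ncard {p : (Fin m × Fin n) × (Fin m × Fin n) |
          p.1.1 < p.2.1 ∧ p.1.2 ≠ p.2.2 ∧ page p.1.1 p.1.2 = page p.2.1 p.2.2 ∧
            Interleave (r p.1.1) (b p.1.2) (r p.2.1) (b p.2.2)})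
    (m : ℕ) (r : Fin m → ℝ) (b : Fin (n + 1) → ℝ) (page : Fin m → Fin (n + 1) → Bool)
    (hr : Function.Injective r) (hb : Function.Injective b) (hrb : ∀ i j, r i ≠ b j)
    (hleft : ∀ i, ((Finset.univ : Finset (Fin (n + 1))).filter (fun t => b t < r i)).card ≤ G₀) :
    (n + 1) * (D * ((m / 2) * ((m - 1) / 2))) ≤
      (n - 1) * Set.ncard {p : (Fin m × Fin (n + 1)) × (Fin m × Fin (n + 1)) |
        p.1.1 < p.2.1 ∧ p.1.2 ≠ p.2.2 ∧ page p.1.1 p.1.2 = page p.2.1 p.2.2 ∧
          Interleave (r p.1.1) (b p.1.2) (r p.2.1) (b p.2.2)} := by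
  classical
  set P : (Fin m × Fin (n + 1)) × (Fin m × Fin (n + 1)) → Prop := fun p =>
    p.1.1 < p.2.1 ∧ p.1.2 ≠ p.2.2 ∧ page p.1.1 p.1.2 = page p.2.1 p.2.2 ∧
      Interleave (r p.1.1) (b p.1.2) (r p.2.1) (b p.2.2) with hP
  have hS : Set.ncard {p | P p} = (Finset.univ.filter P).card := by
    rw [Set.ncard_eq_toFinset_card']
    congr 1
    ext p
    simp
  have key : ∀ t : Fin (n + 1), D * ((m / 2) * ((m - 1) / 2)) ≤
      ((Finset.univ.filter P).filter (fun p => p.1.2 ≠ t ∧ p.2.2 ≠ t)).card := by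
    intro t
    have hl : ∀ i, ((Finset.univ : Finset (Fin n)).filter
        (fun s => (b ∘ t.succAbove) s < r i)).card ≤ G₀ := by
      intro i
      refine le_trans ?_ (hleft i)
      apply Finset.card_le_card_of_injOn t.succAbove
      · intro s hs
        simp only [Finset.coe_filter, Finset.mem_univ, true_and, Set.mem_ofPred_eq,
          Function.comp_apply] at hs ⊢
        exact hs
      · exact Fin.succAbove_right_injective.injOn
    have h1 := h m r (b ∘ t.succAbove) (fun i j => page i (t.succAbove j)) hr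
      (hb.comp Fin.succAbove_right_injective) (fun i j => hrb i _) hl
    refine h1.trans ?_
    rw [Set.ncard_eq_toFinset_card']
    apply Finset.card_le_card_of_injOn
      (fun p => ((p.1.1, t.succAbove p.1.2), (p.2.1, t.succAbove p.2.2)))
    · intro p hp
      have hp' : p.1.1 < p.2.1 ∧ p.1.2 ≠ p.2.2 ∧
          page p.1.1 (t.succAbove p.1.2) = page p.2.1 (t.succAbove p.2.2) ∧
            Interleave (r p.1.1) (b (t.succAbove p.1.2)) (r p.2.1) (b (t.succAbove p.2.2)) := by
        simpa using hp
      obtain ⟨h1, h2, h3, h4⟩ := hp'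
      simp only [Finset.coe_filter, Finset.mem_filter, Finset.mem_univ, true_and,
        Set.mem_ofPred_eq, hP]
      refine ⟨⟨h1, ?_, h3, h4⟩, Fin.succAbove_ne t _, Fin.succAbove_ne t _⟩
      intro h5
      exact h2 (Fin.succAbove_right_injective h5)
    · intro p _ q _ hpq
      simp only [Prod.mk.injEq] at hpq
      obtain ⟨⟨h1, h2⟩, h3, h4⟩ := hpq
      have h2' := Fin.succAbove_right_injective h2
      have h4' := Fin.succAbove_right_injective h4
      exact Prod.ext (Prod.ext h1 h2') (Prod.ext h3 h4')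
  have cnt : ∀ p ∈ Finset.univ.filter P,
      (Finset.univ.filter (fun t : Fin (n + 1) => p.1.2 ≠ t ∧ p.2.2 ≠ t)).card = n - 1 := by
    intro p hp
    have hne : p.1.2 ≠ p.2.2 := by
      have := (Finset.mem_filter.mp hp).2
      exact this.2.1
    have : Finset.univ.filter (fun t : Fin (n + 1) => p.1.2 ≠ t ∧ p.2.2 ≠ t) =
        (Finset.univ : Finset (Fin (n + 1))) \ {p.1.2, p.2.2} := by
      ext t
      simp only [Finset.mem_filter, Finset.mem_univ, true_and, Finset.mem_sdiff,
        Finset.mem_insert, Finset.mem_singleton, not_or]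
      constructor
      · rintro ⟨h1, h2⟩
        exact ⟨fun h => h1 h.symm, fun h => h2 h.symm⟩
      · rintro ⟨h1, h2⟩
        exact ⟨fun h => h1 h.symm, fun h => h2 h.symm⟩
    rw [this, Finset.card_sdiff_of_subset (Finset.subset_univ _), Finset.card_univ,
      Fintype.card_fin, Finset.card_pair hne]
    omega
  have sum1 : ∑ t : Fin (n + 1),
      ((Finset.univ.filter P).filter (fun p => p.1.2 ≠ t ∧ p.2.2 ≠ t)).card =
        (n - 1) * (Finset.univ.filter P).card := by
    simp_rw [Finset.card_filter _ (Finset.univ.filter P)]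
    rw [Finset.sum_comm]
    rw [Finset.sum_congr rfl (fun p hp => by
      rw [← Finset.card_filter, cnt p hp])]
    rw [Finset.sum_const, smul_eq_mul, mul_comm]
  calc (n + 1) * (D * ((m / 2) * ((m - 1) / 2)))
      = ∑ _t : Fin (n + 1), D * ((m / 2) * ((m - 1) / 2)) := by simp
    _ ≤ ∑ t : Fin (n + 1),
        ((Finset.univ.filter P).filter (fun p => p.1.2 ≠ t ∧ p.2.2 ≠ t)).card :=
      Finset.sum_le_sum (fun t _ => key t)
    _ = (n - 1) * (Finset.univ.filter P).card := sum1
    _ = (n - 1) * Set.ncard {p | P p} := by rw [hS]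

end Vale.Agent.Lib.P040.TP.Gen
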