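import Vale.Agent.Lib.P040.TP.Gen.CertHalf
import Vale.Agent.Lib.P040.TP.Gen.ReduceLe

namespace Vale.Agent.Lib.P040.TP.Gen

open Vale.Agent.Lib.P040.TP

/-- Odd number of second-class points: every two-page drawing of `K_{m,2h+1}` in which each
first-class vertex has at most `h + 1` second-class points to its left has at least
`h² ⌊m/2⌋⌊(m-1)/2⌋` crossings. -/
theorem twoPage_half_odd (h m : ℕ) (r : Fin m → ℝ) (b : Fin (2 * h + 1) → ℝ)
    (page : Fin m → Fin (2 * h + 1) → Bool)
    (hr : Function.Injective r) (hb : Function.Injective b) (hrb : ∀ i j, r i ≠ b j)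
    (hleft : ∀ i, ((Finset.univ : Finset (Fin (2 * h + 1))).filter
      (fun t => b t < r i)).card ≤ h + 1) :
    h * h * ((m / 2) * ((m - 1) / 2)) ≤
      Set.ncard {p : (Fin m × Fin (2 * h + 1)) × (Fin m × Fin (2 * h + 1)) |
        p.1.1 < p.2.1 ∧ p.1.2 ≠ p.2.2 ∧ page p.1.1 p.1.2 = page p.2.1 p.2.2 ∧
          Interleave (r p.1.1) (b p.1.2) (r p.2.1) (b p.2.2)} := by
  have key := twoPage_of_cert_le (2 * h + 1) (Fintype.card (Cell (2 * h + 1))) (h + 1)
    (sigmaGen (2 * h + 1)) (fun g g' x x' hg hg' => cert_half h g g' x x' hg hg')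
    m r b page hr hb hrb hleft
  rw [card_cell h] at key
  exact key

/-- Any number of second-class points: every two-page drawing of `K_{m,n}` in which each
first-class vertex has at most ⌊(n+1)/2⌋ second-class points to its left has at least
`⌊n/2⌋⌊(n-1)/2⌋⌊m/2⌋⌊(m-1)/2⌋` crossings. -/
theorem twoPage_half (m n : ℕ) (r : Fin m → ℝ) (b : Fin n → ℝ) (page : Fin m → Fin n → Bool)
    (hr : Function.Injective r) (hb : Function.Injective b) (hrb : ∀ i j, r i ≠ b j)
    (hleft : ∀ i, ((Finset.univ : Finset (Fin n)).filter (fun t => b t < r i)).card ≤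
      (n + 1) / 2) :
    (n / 2) * ((n - 1) / 2) * ((m / 2) * ((m - 1) / 2)) ≤
      Set.ncard {p : (Fin m × Fin n) × (Fin m × Fin n) |
        p.1.1 < p.2.1 ∧ p.1.2 ≠ p.2.2 ∧ page p.1.1 p.1.2 = page p.2.1 p.2.2 ∧
          Interleave (r p.1.1) (b p.1.2) (r p.2.1) (b p.2.2)} := by
  obtain ⟨h, rfl | rfl | rfl⟩ : ∃ h, n = 0 ∨ n = 2 * h + 1 ∨ n = 2 * h + 1 + 1 :=
    ⟨(n - 1) / 2, by omega⟩
  · simp
  · have e1 : (2 * h + 1) / 2 = h := by omega
    have e2 : (2 * h + 1 - 1) / 2 = h := by omega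
    have e3 : (2 * h + 1 + 1) / 2 = h + 1 := by omega
    rw [e1, e2]
    exact twoPage_half_odd h m r b page hr hb hrb (fun i => le_of_le_of_eq (hleft i) e3)
  · have e1 : (2 * h + 1 + 1) / 2 = h + 1 := by omega
    have e2 : (2 * h + 1 + 1 - 1) / 2 = h := by omega
    have e3 : (2 * h + 1 + 1 + 1) / 2 = h + 1 := by omega
    have key := twoPage_succ_le (2 * h + 1) (h * h) (h + 1)
      (fun m r b page hr hb hrb hl => twoPage_half_odd h m r b page hr hb hrb hl)
      m r b page hr hb hrb (fun i => le_of_le_of_eq (hleft i) e3)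
    rw [e1, e2]
    generalize (m / 2) * ((m - 1) / 2) = Z at key ⊢
    generalize Set.ncard _ = X at key ⊢
    rcases Nat.eq_zero_or_pos h with rfl | hpos
    · simp
    · have e4 : (2 * h + 1 + 1) * (h * h * Z) = (2 * h) * ((h + 1) * h * Z) := by ring
      have e5 : 2 * h + 1 - 1 = 2 * h := by omega
      rw [e4, e5] at key
      exact Nat.le_of_mul_le_mul_left key (by omega)

end Vale.Agent.Lib.P040.TP.Gen
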