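import Vale.Agent.Lib.P040.TP.Gen.MirrorA

namespace Vale.Agent.Lib.P040.TP.Gen

/-- Reflecting both indices of a double sum over a square and exchanging them. -/
private theorem sum_reflect_swap (n : ℕ) (F : ℕ → ℕ → ℤ) :
    ∑ k ∈ Finset.range n, ∑ l ∈ Finset.range n, F k l =
      ∑ k ∈ Finset.range n, ∑ l ∈ Finset.range n, F (n - 1 - l) (n - 1 - k) := by
  calc ∑ k ∈ Finset.range n, ∑ l ∈ Finset.range n, F k l
      = ∑ l ∈ Finset.range n, ∑ k ∈ Finset.range n, F k l := Finset.sum_comm
    _ = ∑ l ∈ Finset.range n, ∑ k ∈ Finset.range n, F (n - 1 - k) l := by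
        apply Finset.sum_congr rfl
        intro l _
        exact (Finset.sum_range_reflect (fun k => F k l) n).symm
    _ = ∑ l ∈ Finset.range n, ∑ k ∈ Finset.range n, F (n - 1 - k) (n - 1 - l) :=
        (Finset.sum_range_reflect (fun l => ∑ k ∈ Finset.range n, F (n - 1 - k) l) n).symm

/-- The doubled crossing count is invariant under the reflection. -/
theorem cross_mirror (n g g' : ℕ) (ε ε' : ℕ → ℤ) (hg : g ≤ g') (hg' : g' ≤ n) :
    cross2 n g g' ε ε' = cross2 n (n - g') (n - g) (rev n ε') (rev n ε) := by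
  unfold cross2
  rw [sum_reflect_swap n (fun k l =>
    if CrossCond (n - g') (n - g) k l then 1 + rev n ε' k * rev n ε l else 0)]
  apply Finset.sum_congr rfl
  intro k hk
  apply Finset.sum_congr rfl
  intro l hl
  rw [Finset.mem_range] at hk hl
  have hiff : CrossCond (n - g') (n - g) (n - 1 - l) (n - 1 - k) ↔ CrossCond g g' k l := by
    unfold CrossCond
    omega
  have e1 : rev n ε' (n - 1 - l) = ε' l := by
    unfold rev
    congr 1
    omega
  have e2 : rev n ε (n - 1 - k) = ε k := by
    unfold rev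
    congr 1
    omega
  simp only [hiff, e1, e2]
  rw [mul_comm]

end Vale.Agent.Lib.P040.TP.Gen
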