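import Vale.Agent.Lib.P040.TP.Gen.CoreHalf
import Vale.Agent.Lib.P040.TP.Gen.MirrorA
import Vale.Agent.Lib.P040.TP.Gen.MirrorC

namespace Vale.Agent.Lib.P040.TP.Gen

/-- The two-star inequality when both vertices have at least `h` points to their left. -/
theorem core_mirror (h g g' : ℕ) (ε ε' : ℕ → ℤ) (hε : IsSign ε) (hε' : IsSign ε') (hg : g ≤ g')
    (hgh : h ≤ g) (hg' : g' ≤ 2 * h + 1) :
    ∑ j ∈ Finset.range (2 * h + 1), agree2 (2 * h + 1) g g' ε ε' j
      ≤ cross2 (2 * h + 1) g g' ε ε' := by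
  have key := core_half h (2 * h + 1 - g') (2 * h + 1 - g) (rev (2 * h + 1) ε')
    (rev (2 * h + 1) ε) (rev_isSign (2 * h + 1) ε' hε') (rev_isSign (2 * h + 1) ε hε)
    (by omega) (by omega)
  rw [agree_mirror (2 * h + 1) g g' ε ε' hg hg', cross_mirror (2 * h + 1) g g' ε ε' hg hg']
  exact key

end Vale.Agent.Lib.P040.TP.Gen
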