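import Mathlib

/-!
Straddling pairs, near regime: the column inequality (PC).

Pure integer statements (no sequences). Conventions for a column of the middle zone at distance
`t` from the first vertex (gaps `g = h - th`, `g' = h + th' + 1`, `th + th' ≤ h`):
`x` earlier edges of the second vertex in the middle zone with the sign of the column of the
first vertex, `y` later edges of the first vertex in the middle zone with that sign,
`aS, aO` the numbers of edges of the second vertex to the left zone with that sign and with the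
other sign, `cS, cO` the same for the first vertex and the right zone, `σ, σ'` the clamped
own-sign counts of the two vertices in the column.
-/

namespace Vale.Agent.Lib.P040.TP.Gen

/-- A count `s ≤ top` clamped to `[lo, hi]`, written as in the profile: three cases. -/
theorem pc_clamp_cases (s lo hi top : ℤ) (hlo : lo ≤ hi) (hlt : lo ≤ top) (hs : s ≤ top) :
    (s < lo ∧ min hi (min top (max s lo)) = lo) ∨
    (lo ≤ s ∧ s ≤ hi ∧ min hi (min top (max s lo)) = s) ∨
    (hi < s ∧ min hi (min top (max s lo)) = hi) := by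
  omega

/-- Column inequality, both vertices use the same page in the column. -/
theorem pc_same_core (h th th' aS aO cS cO t x y σ σ' : ℤ)
    (hth : 0 ≤ th) (hth' : 0 ≤ th') (hsum : th + th' ≤ h)
    (haS : 0 ≤ aS) (haO : 0 ≤ aO) (hcS : 0 ≤ cS) (hcO : 0 ≤ cO)
    (ha : aS + aO = h - th) (hc : cS + cO = h - th')
    (ht1 : t ≤ th + th')
    (hx0 : 0 ≤ x) (hx1 : x ≤ t) (hy0 : 0 ≤ y) (hy1 : y ≤ th + th' - t)
    (hσ : (cS + y < th ∧ σ = th) ∨ (th ≤ cS + y ∧ cS + y ≤ h ∧ σ = cS + y) ∨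
      (h < cS + y ∧ σ = h))
    (hσ' : (aS + x < th' ∧ σ' = th') ∨ (th' ≤ aS + x ∧ aS + x ≤ h ∧ σ' = aS + x) ∨
      (h < aS + x ∧ σ' = h)) :
    |σ - (cS + y)| + |σ' - (aS + x)|
    ≤ 2 * ((if y < cO then min x (max (h - aS - cS - y) 0) else 0)
          + max (min y (h - aS - cS - x) - cO) 0)
      + |x + y - (h - aS - cS)| - |σ + σ' - h| := by
  rcases hσ with ⟨h1, rfl⟩ | ⟨h1, h2, rfl⟩ | ⟨h1, rfl⟩ <;>
  rcases hσ' with ⟨h3, rfl⟩ | ⟨h3, h4, rfl⟩ | ⟨h3, rfl⟩ <;>
  split_ifs with hyc <;> simp only [abs_eq_max_neg] <;> omega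

/-- Column inequality, the two vertices use different pages in the column. -/
theorem pc_diff_core (h th th' aS aO cS cO t x y σ σ' : ℤ)
    (hth : 0 ≤ th) (hth' : 0 ≤ th') (hsum : th + th' ≤ h)
    (haS : 0 ≤ aS) (haO : 0 ≤ aO) (hcO : 0 ≤ cO)
    (ha : aS + aO = h - th) (hc : cS + cO = h - th')
    (ht0 : 0 ≤ t) (ht1 : t ≤ th + th')
    (hx0 : 0 ≤ x) (hy1 : y ≤ th + th' - t)
    (hσ : (cS + y < th ∧ σ = th) ∨ (th ≤ cS + y ∧ cS + y ≤ h ∧ σ = cS + y) ∨
      (h < cS + y ∧ σ = h))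
    (hσ' : (aO + (t - x) < th' ∧ σ' = th') ∨
      (th' ≤ aO + (t - x) ∧ aO + (t - x) ≤ h ∧ σ' = aO + (t - x)) ∨
      (h < aO + (t - x) ∧ σ' = h)) :
    |σ - (cS + y)| + |σ' - (aO + (t - x))|
    ≤ 2 * ((if y < cO then min x (max (h - aS - cS - y) 0) else 0)
          + max (min (th + th' - t - y) (h - aO - cO - (t - x)) - cS) 0)
      + |x + y - (h - aS - cS)| - |σ - σ' + t - th| := by
  rcases hσ with ⟨h1, rfl⟩ | ⟨h1, h2, rfl⟩ | ⟨h1, rfl⟩ <;>
  rcases hσ' with ⟨h3, rfl⟩ | ⟨h3, h4, rfl⟩ | ⟨h3, rfl⟩ <;>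
  split_ifs with hyc <;> simp only [abs_eq_max_neg] <;> omega

end Vale.Agent.Lib.P040.TP.Gen
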