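import Vale.Agent.Lib.P040.TP.Gen.Count

namespace Vale.Agent.Lib.P040.TP.Gen

private lemma wsum_RR_diff (x : ℤ) : RR x = RR (x - 1) + 2 * max (x - 1) 0 := by
  unfold RR
  rcases le_or_gt x 0 with hx | hx
  · rw [max_eq_right hx, max_eq_right (by omega : x - 1 ≤ 0)]
    ring
  · rw [max_eq_left (by omega : 0 ≤ x), max_eq_left (by omega : 0 ≤ x - 1)]
    ring

private lemma wsum_RR_of_nonneg (x : ℤ) (hx : 0 ≤ x) : RR x = x * (x - 1) := by
  unfold RR
  rw [max_eq_left hx]

private lemma wsum_RR_of_nonpos (x : ℤ) (hx : x ≤ 0) : RR x = 0 := by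
  unfold RR
  rw [max_eq_right hx]
  ring

/-- The three increments of `RR` when `a` grows by one. -/
private lemma wsum_incr (t h a b : ℤ) :
    RR (t - a) = RR (t - (a + 1)) + 2 * max (t - (a + 1)) 0 ∧
    RR (t - a - b) = RR (t - (a + 1) - b) + 2 * max (t - (a + 1) - b) 0 ∧
    RR (a + 1 - h) = RR (a - h) + 2 * max (a - h) 0 := by
  refine ⟨?_, ?_, ?_⟩
  · have h1 := wsum_RR_diff (t - a)
    rwa [show t - a - 1 = t - (a + 1) by ring] at h1
  · have h2 := wsum_RR_diff (t - a - b)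
    rwa [show t - a - b - 1 = t - (a + 1) - b by ring] at h2
  · have h3 := wsum_RR_diff (a + 1 - h)
    rwa [show a + 1 - h - 1 = a - h by ring] at h3

/-- The signed closed form grows by the clamp correction when `a` grows by one. -/
private lemma wsum_stepm (t h a b : ℤ) (hb : 0 ≤ b) (hth : t ≤ h + 1) :
    - RR (t - (a + 1)) - RR (t - b) + RR (t - (a + 1) - b) - RR (a + 1 - h) - RR (b - h)
      = (- RR (t - a) - RR (t - b) + RR (t - a - b) - RR (a - h) - RR (b - h))
        + 2 * (min h (min (a + b) (max a (t - 1))) - a) := by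
  obtain ⟨h1, h2, h3⟩ := wsum_incr t h a b
  have key : 2 * max (t - (a + 1)) 0 - 2 * max (t - (a + 1) - b) 0 - 2 * max (a - h) 0
      = 2 * (min h (min (a + b) (max a (t - 1))) - a) := by omega
  linarith

/-- The absolute closed form grows by the absolute clamp correction when `a` grows by one. -/
private lemma wsum_stepp (t h a b : ℤ) (hb : 0 ≤ b) (hth : t ≤ h + 1) :
    - RR (t - (a + 1)) - RR (t - b) + RR (t - (a + 1) - b) + RR (a + 1 - h) + RR (b - h)
      = (- RR (t - a) - RR (t - b) + RR (t - a - b) + RR (a - h) + RR (b - h))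
        + |2 * (min h (min (a + b) (max a (t - 1))) - a)| := by
  obtain ⟨h1, h2, h3⟩ := wsum_incr t h a b
  have key : 2 * max (t - (a + 1)) 0 - 2 * max (t - (a + 1) - b) 0 + 2 * max (a - h) 0
      = |2 * (min h (min (a + b) (max a (t - 1))) - a)| := by
    rw [abs_eq_max_neg]
    omega
  linarith

/-- The signed closed form grows by the clamp correction when `b` grows by one. -/
private lemma wsum_stepm' (t h a b : ℤ) (ha : 0 ≤ a) (hth : t ≤ h + 1) :
    - RR (t - a) - RR (t - (b + 1)) + RR (t - a - (b + 1)) - RR (a - h) - RR (b + 1 - h)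
      = (- RR (t - a) - RR (t - b) + RR (t - a - b) - RR (a - h) - RR (b - h))
        + 2 * (min h (min (a + b) (max b (t - 1))) - b) := by
  have hs := wsum_stepm t h b a ha hth
  rw [show t - (b + 1) - a = t - a - (b + 1) by ring, show t - b - a = t - a - b by ring,
    add_comm b a] at hs
  linarith

/-- The absolute closed form grows by the absolute clamp correction when `b` grows by one. -/
private lemma wsum_stepp' (t h a b : ℤ) (ha : 0 ≤ a) (hth : t ≤ h + 1) :
    - RR (t - a) - RR (t - (b + 1)) + RR (t - a - (b + 1)) + RR (a - h) + RR (b + 1 - h)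
      = (- RR (t - a) - RR (t - b) + RR (t - a - b) + RR (a - h) + RR (b - h))
        + |2 * (min h (min (a + b) (max b (t - 1))) - b)| := by
  have hs := wsum_stepp t h b a ha hth
  rw [show t - (b + 1) - a = t - a - (b + 1) by ring, show t - b - a = t - a - b by ring,
    add_comm b a] at hs
  linarith

/-- Both closed forms, by downward induction on the first column. -/
private lemma wsum_both (h γ : ℕ) (ε : ℕ → ℤ) (hε : IsSign ε) (hγ : γ ≤ h + 1) :
    ∀ i k : ℕ, k + i = 2 * h + 1 → γ ≤ k →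
      (∑ j ∈ Finset.Ico k (2 * h + 1), omega (2 * h + 1) γ ε j =
        ((h : ℤ) + 1 - γ) * ((h : ℤ) - γ)
          - RR ((h : ℤ) + 1 - γ - cntp (2 * h + 1) ε k)
          - RR ((h : ℤ) + 1 - γ - cntm (2 * h + 1) ε k)
          + RR ((h : ℤ) + 1 - γ - cntp (2 * h + 1) ε k - cntm (2 * h + 1) ε k)
          - RR (cntp (2 * h + 1) ε k - h) - RR (cntm (2 * h + 1) ε k - h)) ∧
      (∑ j ∈ Finset.Ico k (2 * h + 1), |omega (2 * h + 1) γ ε j| =
        ((h : ℤ) + 1 - γ) * ((h : ℤ) - γ)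
          - RR ((h : ℤ) + 1 - γ - cntp (2 * h + 1) ε k)
          - RR ((h : ℤ) + 1 - γ - cntm (2 * h + 1) ε k)
          + RR ((h : ℤ) + 1 - γ - cntp (2 * h + 1) ε k - cntm (2 * h + 1) ε k)
          + RR (cntp (2 * h + 1) ε k - h) + RR (cntm (2 * h + 1) ε k - h)) := by
  have hγ' : (γ : ℤ) ≤ (h : ℤ) + 1 := by exact_mod_cast hγ
  have hγ0 : (0 : ℤ) ≤ γ := Int.natCast_nonneg γ
  have hh0 : (0 : ℤ) ≤ h := Int.natCast_nonneg h
  have ht : (0 : ℤ) ≤ (h : ℤ) + 1 - γ := by linarith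
  have hth : (h : ℤ) + 1 - γ ≤ (h : ℤ) + 1 := by linarith
  intro i
  induction i with
  | zero =>
    intro k hk hγk
    have hkn : k = 2 * h + 1 := by omega
    subst hkn
    have hp : cntp (2 * h + 1) ε (2 * h + 1) = 0 := by
      unfold cntp
      rw [Finset.Ico_self, Finset.sum_empty]
    have hm : cntm (2 * h + 1) ε (2 * h + 1) = 0 := by
      unfold cntm
      rw [Finset.Ico_self, Finset.sum_empty]
    have hR : RR ((h : ℤ) + 1 - γ) = ((h : ℤ) + 1 - γ) * ((h : ℤ) + 1 - γ - 1) :=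
      wsum_RR_of_nonneg _ ht
    have hR0 : RR (0 - (h : ℤ)) = 0 := wsum_RR_of_nonpos _ (by linarith)
    rw [hp, hm, Finset.Ico_self, Finset.sum_empty, Finset.sum_empty, sub_zero, sub_zero, hR0, hR]
    constructor <;> ring
  | succ i ih =>
    intro k hk hγk
    have hkn : k < 2 * h + 1 := by omega
    obtain ⟨ihm, ihp⟩ := ih (k + 1) (by omega) (by omega)
    have hab := cnt_add (2 * h + 1) (k + 1) (by omega) ε
    have ha := cntp_nonneg (2 * h + 1) (k + 1) ε
    have hb := cntm_nonneg (2 * h + 1) (k + 1) ε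
    push_cast at hab
    rw [Finset.sum_eq_sum_Ico_succ_bot hkn, Finset.sum_eq_sum_Ico_succ_bot hkn, ihm, ihp,
      cntp_step _ k hkn ε, cntm_step _ k hkn ε, omega_count h γ k ε hε hγk hkn]
    have hkab : 2 * (h : ℤ) - k
        = cntp (2 * h + 1) ε (k + 1) + cntm (2 * h + 1) ε (k + 1) := by linarith
    have hhγ : (h : ℤ) - γ = (h : ℤ) + 1 - γ - 1 := by ring
    rw [hkab, hhγ]
    by_cases h1 : ε k = 1
    · simp only [if_pos h1, add_zero]
      have sm := wsum_stepm ((h : ℤ) + 1 - γ) h (cntp (2 * h + 1) ε (k + 1))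
        (cntm (2 * h + 1) ε (k + 1)) hb hth
      have sp := wsum_stepp ((h : ℤ) + 1 - γ) h (cntp (2 * h + 1) ε (k + 1))
        (cntm (2 * h + 1) ε (k + 1)) hb hth
      constructor <;> linarith
    · simp only [if_neg h1, add_zero]
      have sm := wsum_stepm' ((h : ℤ) + 1 - γ) h (cntp (2 * h + 1) ε (k + 1))
        (cntm (2 * h + 1) ε (k + 1)) ha hth
      have sp := wsum_stepp' ((h : ℤ) + 1 - γ) h (cntp (2 * h + 1) ε (k + 1))
        (cntm (2 * h + 1) ε (k + 1)) ha hth
      constructor <;> linarith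

/-- Closed form of the sum of the clamp corrections over the columns `k, ..., 2h`, for a vertex
in gap `γ ≤ h + 1`, in terms of the numbers `a`, `b` of the two signs among these points. -/
theorem W_sgn (h γ k : ℕ) (ε : ℕ → ℤ) (hε : IsSign ε) (hγ : γ ≤ h + 1) (hk : γ ≤ k)
    (hkn : k ≤ 2 * h + 1) :
    ∑ j ∈ Finset.Ico k (2 * h + 1), omega (2 * h + 1) γ ε j =
      ((h : ℤ) + 1 - γ) * ((h : ℤ) - γ)
        - RR ((h : ℤ) + 1 - γ - cntp (2 * h + 1) ε k)
        - RR ((h : ℤ) + 1 - γ - cntm (2 * h + 1) ε k)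
        + RR ((h : ℤ) + 1 - γ - cntp (2 * h + 1) ε k - cntm (2 * h + 1) ε k)
        - RR (cntp (2 * h + 1) ε k - h) - RR (cntm (2 * h + 1) ε k - h) :=
  (wsum_both h γ ε hε hγ (2 * h + 1 - k) k (by omega) hk).1

/-- Closed form of the sum of the absolute clamp corrections. -/
theorem W_abs (h γ k : ℕ) (ε : ℕ → ℤ) (hε : IsSign ε) (hγ : γ ≤ h + 1) (hk : γ ≤ k)
    (hkn : k ≤ 2 * h + 1) :
    ∑ j ∈ Finset.Ico k (2 * h + 1), |omega (2 * h + 1) γ ε j| =
      ((h : ℤ) + 1 - γ) * ((h : ℤ) - γ)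
        - RR ((h : ℤ) + 1 - γ - cntp (2 * h + 1) ε k)
        - RR ((h : ℤ) + 1 - γ - cntm (2 * h + 1) ε k)
        + RR ((h : ℤ) + 1 - γ - cntp (2 * h + 1) ε k - cntm (2 * h + 1) ε k)
        + RR (cntp (2 * h + 1) ε k - h) + RR (cntm (2 * h + 1) ε k - h) :=
  (wsum_both h γ ε hε hγ (2 * h + 1 - k) k (by omega) hk).2

end Vale.Agent.Lib.P040.TP.Gen
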