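import Vale.Agent.Lib.P040.TP.Gen.Defs

/-!
# A potential for the sweep of the middle zone (pairs of vertices at most `h + 1` apart)

All quantities are integers. The parameters are `h`, `θ`, `θ'` with `θ + θ' ≤ h`, the sign counts
`a + b = h - θ` and `cp + cm = h - θ'`. A state is given by four counters `x, xb, z, zb` with
`x + xb + z + zb = θ + θ' + 1`: `x`, `xb` count the two signs of the second vertex on the columns
already swept, and `z`, `zb` count the two signs of the first vertex on the columns still to come.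
`potNear` is twice the potential; `costSame` and `costOpp` are the costs of a column whose two
signs are equal, respectively different. The step inequalities say that the doubled cost of a
column is at least the drop of the potential.
-/

namespace Vale.Agent.Lib.P040.TP.Gen

/-- `jsum θ q lo k` is the sum over `r = lo, ..., lo + k - 1` of the positive part of
`θ - max q r`. -/
def jsum (θ q lo : ℤ) : ℕ → ℤ
  | 0 => 0
  | k + 1 => jsum θ q lo k + max (θ - max q (lo + k)) 0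

/-- Twice the potential of a state. -/
def potNear (h θ θ' a b cp cm x xb z zb : ℤ) : ℤ :=
  2 * (x * z) + 2 * (xb * zb)
    + (RR (a + x + cp - h) - RR (1 - (a + x + cp - h)))
    + (RR (b + xb + cm - h) - RR (1 - (b + xb + cm - h)))
    + RR (θ' + 1 - (a + x)) + RR (θ' + 1 - (b + xb)) - RR (a + x - h) - RR (b + xb - h)
    - RR (θ + 1 - (cp + z)) - RR (θ + 1 - (cm + zb)) + RR (cp + z - h) + RR (cm + zb - h)
    + RR (θ + 1 - cp) + RR (θ + 1 - cm)
    - 4 * (jsum θ (h - (b + xb)) cm zb.toNat + jsum θ (h - (a + x)) cp z.toNat)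

/-- Cost of column `i` when the two signs are equal: `c` counts the earlier edges of the second
vertex with that sign, `kap` the edges of the second vertex with that sign to the left, and `s`
the edges of the first vertex with that sign to the right. -/
def costSame (h θ θ' i c kap s : ℤ) : ℤ :=
  c - |min h (min (h + θ - i) (max s θ)) + min h (min (h - θ + i) (max kap θ')) - h|

/-- Cost of column `i` when the two signs differ. -/
def costOpp (h θ θ' i c kap s : ℤ) : ℤ :=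
  c - |min h (min (h + θ - i) (max s θ)) + max (i - θ) (max 0 (min kap (h - θ - θ' + i))) - h|

theorem RR_shift (m n : ℤ) (hmn : m = n + 1) : RR m = RR n + 2 * max n 0 := by
  subst hmn
  unfold RR
  rcases le_or_gt 0 n with hn | hn
  · rw [max_eq_left (by omega : (0 : ℤ) ≤ n + 1), max_eq_left hn]; ring
  · rw [max_eq_right (by omega : n + 1 ≤ 0), max_eq_right (by omega : n ≤ 0)]; ring

theorem RR_step (m m' n : ℤ) (h1 : m = n + 1) (h2 : m' = n) : RR m - RR m' = 2 * max n 0 := by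
  subst h2
  have := RR_shift m m' h1
  linarith

theorem RR_of_nonpos (n : ℤ) (hn : n ≤ 0) : RR n = 0 := by
  unfold RR
  rw [max_eq_right hn]; ring

theorem RR_nonneg (n : ℤ) : 0 ≤ RR n := by
  unfold RR
  rcases le_or_gt n 0 with hn | hn
  · rw [max_eq_right hn]; norm_num
  · rw [max_eq_left hn.le]; nlinarith

theorem RR_add_reflect (n : ℤ) : RR n + RR (1 - n) = n * (n - 1) := by
  unfold RR
  rcases le_or_gt n 0 with hn | hn
  · rw [max_eq_right hn, max_eq_left (by omega : (0 : ℤ) ≤ 1 - n)]; ring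
  · rw [max_eq_left hn.le, max_eq_right (by omega : 1 - n ≤ 0)]; ring

theorem jsum_shift (θ q lo : ℤ) (k : ℕ) :
    jsum θ (q - 1) lo k
      = jsum θ q lo k + (if q ≤ θ then max 0 (min (lo + k) q - lo) else 0) := by
  induction k with
  | zero =>
    show (0 : ℤ) = 0 + _
    split_ifs <;> omega
  | succ k ih =>
    show jsum θ (q - 1) lo k + max (θ - max (q - 1) (lo + k)) 0
      = jsum θ q lo k + max (θ - max q (lo + k)) 0 + _
    rw [ih]
    push_cast
    split_ifs <;> omega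

theorem jsum_eq_zero (θ q lo : ℤ) (k : ℕ) (hq : θ ≤ q) : jsum θ q lo k = 0 := by
  induction k with
  | zero => rfl
  | succ k ih =>
    show jsum θ q lo k + max (θ - max q (lo + k)) 0 = 0
    rw [ih]
    omega

theorem potNear_symm (h θ θ' a b cp cm x xb z zb : ℤ) :
    potNear h θ θ' a b cp cm x xb z zb = potNear h θ θ' b a cm cp xb x zb z := by
  unfold potNear
  generalize jsum θ (h - (b + xb)) cm zb.toNat = J1
  generalize jsum θ (h - (a + x)) cp z.toNat = J2
  ring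

/-- The column inequality for equal signs, in the variables `u = cp + z - 1`, `v = a + x`. -/
theorem core_same (h θ θ' cp a u v : ℤ) (hθ : 1 ≤ θ) (hθ' : 1 ≤ θ') (hsum : θ + θ' ≤ h)
    (ha : 0 ≤ a) (hah : a ≤ h - θ) (hcp : 0 ≤ cp) (hcph : cp ≤ h - θ') (hu : cp ≤ u) (hv : a ≤ v)
    (huv : u + v ≤ cp + a + θ + θ') :
    cp - u - |v + cp - h| + max (θ' - v) 0 + max (v - h) 0 + max (θ - u) 0 + max (u - h) 0
      - 2 * max (θ - max (h - v) u) 0
      + 2 * (if h - v ≤ θ then max 0 (min u (h - v) - cp) else 0)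
      + |min h (max u θ) + min h (max v θ') - h| ≤ 0 := by
  simp only [abs_eq_max_neg]
  split_ifs <;> omega

private theorem core_opp_u1a (h θ θ' a b cp cm u v w t i : ℤ) (_hθ : 1 ≤ θ) (hθ' : 1 ≤ θ')
    (hsum : θ + θ' ≤ h) (ha : 0 ≤ a) (_hb : 0 ≤ b) (hab : a + b = h - θ) (hcp : 0 ≤ cp)
    (hcm : 0 ≤ cm) (hc : cp + cm = h - θ') (hu : cp ≤ u) (hv : a ≤ v) (hw : b ≤ w) (ht : cm ≤ t)
    (hi : i = v - a + (w - b)) (htot : u - cp + (t - cm) + i = θ + θ') (hu1 : u ≤ θ)
    (hw1 : h - w ≤ θ) :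
    -(t - cm) - |w + cm - h| + max (θ' - w) 0 + max (w - h) 0 + (θ - u)
      - 2 * max (θ - max (h - v) u) 0
      + 2 * max 0 (min t (h - w) - cm)
      + |θ + max (i - θ) (max 0 (min v (h - θ - θ' + i))) - h| ≤ 0 := by
  simp only [abs_eq_max_neg]
  omega

private theorem core_opp_u1b (h θ θ' a b cp cm u v w t i : ℤ) (hθ : 1 ≤ θ) (_hθ' : 1 ≤ θ')
    (hsum : θ + θ' ≤ h) (ha : 0 ≤ a) (hb : 0 ≤ b) (hab : a + b = h - θ) (hcp : 0 ≤ cp)
    (hcm : 0 ≤ cm) (hc : cp + cm = h - θ') (hu : cp ≤ u) (hv : a ≤ v) (hw : b ≤ w) (ht : cm ≤ t)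
    (hi : i = v - a + (w - b)) (htot : u - cp + (t - cm) + i = θ + θ') (hu1 : u ≤ θ)
    (hw1 : θ < h - w) (hw2 : w + cm ≤ h) :
    -(t - cm) - |w + cm - h| + max (θ' - w) 0 + max (w - h) 0 + (θ - u)
      - 2 * max (θ - max (h - v) u) 0
      + |θ + max (i - θ) (max 0 (min v (h - θ - θ' + i))) - h| ≤ 0 := by
  simp only [abs_eq_max_neg]
  omega

private theorem core_opp_u1c (h θ θ' a b cp cm u v w t i : ℤ) (hθ : 1 ≤ θ) (hθ' : 1 ≤ θ')
    (hsum : θ + θ' ≤ h) (ha : 0 ≤ a) (_hb : 0 ≤ b) (hab : a + b = h - θ) (hcp : 0 ≤ cp)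
    (hcm : 0 ≤ cm) (hc : cp + cm = h - θ') (hu : cp ≤ u) (hv : a ≤ v) (_hw : b ≤ w) (ht : cm ≤ t)
    (hi : i = v - a + (w - b)) (htot : u - cp + (t - cm) + i = θ + θ') (hu1 : u ≤ θ)
    (hw1 : θ < h - w) (hw2 : h < w + cm) :
    -(t - cm) - |w + cm - h| + max (θ' - w) 0 + max (w - h) 0 + (θ - u)
      - 2 * max (θ - max (h - v) u) 0
      + |θ + max (i - θ) (max 0 (min v (h - θ - θ' + i))) - h| ≤ 0 := by
  simp only [abs_eq_max_neg]
  omega

private theorem core_opp_u2 (h θ θ' a b cp cm u v w t i : ℤ) (hθ : 1 ≤ θ) (_hθ' : 1 ≤ θ')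
    (hsum : θ + θ' ≤ h) (ha : 0 ≤ a) (_hb : 0 ≤ b) (hab : a + b = h - θ) (hcp : 0 ≤ cp)
    (hcm : 0 ≤ cm) (hc : cp + cm = h - θ') (_hu : cp ≤ u) (hv : a ≤ v) (hw : b ≤ w) (ht : cm ≤ t)
    (hi : i = v - a + (w - b)) (htot : u - cp + (t - cm) + i = θ + θ') (_hu1 : θ < u)
    (hu2 : u ≤ h) :
    -(t - cm) - |w + cm - h| + max (θ' - w) 0 + max (w - h) 0
      + 2 * (if h - w ≤ θ then max 0 (min t (h - w) - cm) else 0)
      + |u + max (i - θ) (max 0 (min v (h - θ - θ' + i))) - h| ≤ 0 := by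
  simp only [abs_eq_max_neg]
  split_ifs <;> omega

private theorem core_opp_u3 (h θ θ' a b cp cm u v w t i : ℤ) (hθ : 1 ≤ θ) (_hθ' : 1 ≤ θ')
    (hsum : θ + θ' ≤ h) (ha : 0 ≤ a) (_hb : 0 ≤ b) (hab : a + b = h - θ) (_hcp : 0 ≤ cp)
    (hcm : 0 ≤ cm) (hc : cp + cm = h - θ') (_hu : cp ≤ u) (hv : a ≤ v) (hw : b ≤ w) (ht : cm ≤ t)
    (hi : i = v - a + (w - b)) (htot : u - cp + (t - cm) + i = θ + θ') (hu1 : h < u) :
    -(t - cm) - |w + cm - h| + max (θ' - w) 0 + max (w - h) 0 + (u - h)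
      + 2 * (if h - w ≤ θ then max 0 (min t (h - w) - cm) else 0)
      + |h + max (i - θ) (max 0 (min v (h - θ - θ' + i))) - h| ≤ 0 := by
  simp only [abs_eq_max_neg]
  split_ifs <;> omega

/-- The column inequality for different signs, in the variables `u = cp + z - 1`, `v = a + x`,
`w = b + xb`, `t = cm + zb`. -/
theorem core_opp (h θ θ' a b cp cm u v w t i : ℤ) (hθ : 1 ≤ θ) (hθ' : 1 ≤ θ')
    (hsum : θ + θ' ≤ h) (ha : 0 ≤ a) (hb : 0 ≤ b) (hab : a + b = h - θ) (hcp : 0 ≤ cp)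
    (hcm : 0 ≤ cm) (hc : cp + cm = h - θ') (hu : cp ≤ u) (hv : a ≤ v) (hw : b ≤ w) (ht : cm ≤ t)
    (hi : i = v - a + (w - b)) (htot : u - cp + (t - cm) + i = θ + θ') :
    -(t - cm) - |w + cm - h| + max (θ' - w) 0 + max (w - h) 0 + max (θ - u) 0 + max (u - h) 0
      - 2 * max (θ - max (h - v) u) 0
      + 2 * (if h - w ≤ θ then max 0 (min t (h - w) - cm) else 0)
      + |min h (max u θ) + max (i - θ) (max 0 (min v (h - θ - θ' + i))) - h| ≤ 0 := by
  rcases le_or_gt u θ with hu1 | hu1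
  · have e1 : max (θ - u) 0 = θ - u := max_eq_left (by omega)
    have e2 : max (u - h) 0 = 0 := max_eq_right (by omega)
    have e3 : min h (max u θ) = θ := by
      rw [max_eq_right hu1]; exact min_eq_right (by omega)
    rw [e1, e2, e3]
    rcases le_or_gt (h - w) θ with hw1 | hw1
    · rw [if_pos hw1]
      have := core_opp_u1a h θ θ' a b cp cm u v w t i hθ hθ' hsum ha hb hab hcp hcm hc hu hv hw
        ht hi htot hu1 hw1
      linarith
    · rw [if_neg (not_le.mpr hw1)]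
      rcases le_or_gt (w + cm) h with hw2 | hw2
      · have := core_opp_u1b h θ θ' a b cp cm u v w t i hθ hθ' hsum ha hb hab hcp hcm hc hu hv
          hw ht hi htot hu1 hw1 hw2
        linarith
      · have := core_opp_u1c h θ θ' a b cp cm u v w t i hθ hθ' hsum ha hb hab hcp hcm hc hu hv
          hw ht hi htot hu1 hw1 hw2
        linarith
  · have e4 : max (θ - max (h - v) u) 0 = 0 := by omega
    have e1 : max (θ - u) 0 = 0 := max_eq_right (by omega)
    rcases le_or_gt u h with hu2 | hu2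
    · have e2 : max (u - h) 0 = 0 := max_eq_right (by omega)
      have e3 : min h (max u θ) = u := by
        rw [max_eq_left hu1.le]; exact min_eq_right hu2
      rw [e1, e2, e3, e4]
      have := core_opp_u2 h θ θ' a b cp cm u v w t i hθ hθ' hsum ha hb hab hcp hcm hc hu hv hw
        ht hi htot hu1 hu2
      linarith
    · have e2 : max (u - h) 0 = u - h := max_eq_left (by omega)
      have e3 : min h (max u θ) = h := by
        rw [max_eq_left hu1.le]; exact min_eq_left hu2.le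
      rw [e1, e2, e3, e4]
      have := core_opp_u3 h θ θ' a b cp cm u v w t i hθ hθ' hsum ha hb hab hcp hcm hc hu hv hw
        ht hi htot hu2
      linarith

theorem abs_eq_pos_parts (n m : ℤ) (hm : m = -n) : |n| = max n 0 + max m 0 := by
  subst hm
  rw [abs_eq_max_neg]
  omega

/-- Step with both signs `+`. -/
theorem step_same_plus (h θ θ' a b cp cm x xb z zb : ℤ)
    (hθ : 1 ≤ θ) (hθ' : 1 ≤ θ') (hsum : θ + θ' ≤ h)
    (ha : 0 ≤ a) (hb : 0 ≤ b) (hab : a + b = h - θ)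
    (hcp : 0 ≤ cp) (hcm : 0 ≤ cm) (hc : cp + cm = h - θ')
    (hx : 0 ≤ x) (hxb : 0 ≤ xb) (hz : 1 ≤ z) (hzb : 0 ≤ zb)
    (htot : x + xb + z + zb = θ + θ' + 1) :
    potNear h θ θ' a b cp cm x xb z zb - potNear h θ θ' a b cp cm (x + 1) xb (z - 1) zb
      ≤ 2 * costSame h θ θ' (x + xb) x (a + x) (cp + z - 1) := by
  obtain ⟨k, rfl⟩ : ∃ k : ℕ, z = (k : ℤ) + 1 := ⟨(z - 1).toNat, by omega⟩
  unfold potNear costSame
  have e1 : ((k : ℤ) + 1).toNat = k + 1 := by omega
  have e2 : ((k : ℤ) + 1 - 1).toNat = k := by omega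
  rw [e1, e2]
  have j1 : jsum θ (h - (a + x)) cp (k + 1)
      = jsum θ (h - (a + x)) cp k + max (θ - max (h - (a + x)) (cp + k)) 0 := rfl
  have j2 : jsum θ (h - (a + (x + 1))) cp k = jsum θ (h - (a + x)) cp k
      + (if h - (a + x) ≤ θ then max 0 (min (cp + k) (h - (a + x)) - cp) else 0) := by
    rw [← jsum_shift]; congr 1; ring
  have hS : min h (min (h + θ - (x + xb)) (max (cp + ((k : ℤ) + 1) - 1) θ))
      = min h (max (cp + (k : ℤ)) θ) := by omega
  have hK : min h (min (h - θ + (x + xb)) (max (a + x) θ')) = min h (max (a + x) θ') := by omega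
  have d1 := RR_step (a + (x + 1) + cp - h) (a + x + cp - h) (a + x + cp - h) (by ring) rfl
  have d2 := RR_step (1 - (a + x + cp - h)) (1 - (a + (x + 1) + cp - h)) (h - (a + x + cp))
    (by ring) (by ring)
  have d3 := RR_step (θ' + 1 - (a + x)) (θ' + 1 - (a + (x + 1))) (θ' - (a + x)) (by ring) (by ring)
  have d4 := RR_step (a + (x + 1) - h) (a + x - h) (a + x - h) (by ring) rfl
  have d5 := RR_step (θ + 1 - (cp + ((k : ℤ) + 1 - 1))) (θ + 1 - (cp + ((k : ℤ) + 1)))
    (θ - (cp + (k : ℤ))) (by ring) (by ring)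
  have d6 := RR_step (cp + ((k : ℤ) + 1) - h) (cp + ((k : ℤ) + 1 - 1) - h) (cp + (k : ℤ) - h)
    (by ring) (by ring)
  have habs := abs_eq_pos_parts (a + x + cp - h) (h - (a + x + cp)) (by ring)
  have hcore := core_same h θ θ' cp a (cp + k) (a + x) hθ hθ' hsum ha (by omega) hcp (by omega)
    (by omega) (by omega) (by omega)
  rw [j1, j2, hS, hK]
  linarith

/-- Step with signs `+` (first vertex) and `-` (second vertex). -/
theorem step_opp_plus (h θ θ' a b cp cm x xb z zb : ℤ)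
    (hθ : 1 ≤ θ) (hθ' : 1 ≤ θ') (hsum : θ + θ' ≤ h)
    (ha : 0 ≤ a) (hb : 0 ≤ b) (hab : a + b = h - θ)
    (hcp : 0 ≤ cp) (hcm : 0 ≤ cm) (hc : cp + cm = h - θ')
    (hx : 0 ≤ x) (hxb : 0 ≤ xb) (hz : 1 ≤ z) (hzb : 0 ≤ zb)
    (htot : x + xb + z + zb = θ + θ' + 1) :
    potNear h θ θ' a b cp cm x xb z zb - potNear h θ θ' a b cp cm x (xb + 1) (z - 1) zb
      ≤ 2 * costOpp h θ θ' (x + xb) x (a + x) (cp + z - 1) := by
  obtain ⟨k, rfl⟩ : ∃ k : ℕ, z = (k : ℤ) + 1 := ⟨(z - 1).toNat, by omega⟩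
  unfold potNear costOpp
  have e1 : ((k : ℤ) + 1).toNat = k + 1 := by omega
  have e2 : ((k : ℤ) + 1 - 1).toNat = k := by omega
  rw [e1, e2]
  have j1 : jsum θ (h - (a + x)) cp (k + 1)
      = jsum θ (h - (a + x)) cp k + max (θ - max (h - (a + x)) (cp + k)) 0 := rfl
  have j2 : jsum θ (h - (b + (xb + 1))) cm zb.toNat = jsum θ (h - (b + xb)) cm zb.toNat
      + (if h - (b + xb) ≤ θ then max 0 (min (cm + zb) (h - (b + xb)) - cm) else 0) := by
    have hj := jsum_shift θ (h - (b + xb)) cm zb.toNat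
    rw [Int.toNat_of_nonneg hzb] at hj
    rw [← hj]; congr 1; ring
  have hS : min h (min (h + θ - (x + xb)) (max (cp + ((k : ℤ) + 1) - 1) θ))
      = min h (max (cp + (k : ℤ)) θ) := by omega
  have d1 := RR_step (b + (xb + 1) + cm - h) (b + xb + cm - h) (b + xb + cm - h) (by ring) rfl
  have d2 := RR_step (1 - (b + xb + cm - h)) (1 - (b + (xb + 1) + cm - h)) (h - (b + xb + cm))
    (by ring) (by ring)
  have d3 := RR_step (θ' + 1 - (b + xb)) (θ' + 1 - (b + (xb + 1))) (θ' - (b + xb)) (by ring)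
    (by ring)
  have d4 := RR_step (b + (xb + 1) - h) (b + xb - h) (b + xb - h) (by ring) rfl
  have d5 := RR_step (θ + 1 - (cp + ((k : ℤ) + 1 - 1))) (θ + 1 - (cp + ((k : ℤ) + 1)))
    (θ - (cp + (k : ℤ))) (by ring) (by ring)
  have d6 := RR_step (cp + ((k : ℤ) + 1) - h) (cp + ((k : ℤ) + 1 - 1) - h) (cp + (k : ℤ) - h)
    (by ring) (by ring)
  have habs := abs_eq_pos_parts (b + xb + cm - h) (h - (b + xb + cm)) (by ring)
  have hcore := core_opp h θ θ' a b cp cm (cp + k) (a + x) (b + xb) (cm + zb) (x + xb) hθ hθ'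
    hsum ha hb hab hcp hcm hc (by omega) (by omega) (by omega) (by omega) (by ring) (by omega)
  rw [j1, j2, hS]
  linarith

/-- Step with both signs `-`. -/
theorem step_same_minus (h θ θ' a b cp cm x xb z zb : ℤ)
    (hθ : 1 ≤ θ) (hθ' : 1 ≤ θ') (hsum : θ + θ' ≤ h)
    (ha : 0 ≤ a) (hb : 0 ≤ b) (hab : a + b = h - θ)
    (hcp : 0 ≤ cp) (hcm : 0 ≤ cm) (hc : cp + cm = h - θ')
    (hx : 0 ≤ x) (hxb : 0 ≤ xb) (hz : 0 ≤ z) (hzb : 1 ≤ zb)
    (htot : x + xb + z + zb = θ + θ' + 1) :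
    potNear h θ θ' a b cp cm x xb z zb - potNear h θ θ' a b cp cm x (xb + 1) z (zb - 1)
      ≤ 2 * costSame h θ θ' (x + xb) xb (b + xb) (cm + zb - 1) := by
  have hs := step_same_plus h θ θ' b a cm cp xb x zb z hθ hθ' hsum hb ha (by omega) hcm hcp
    (by omega) hxb hx hzb hz (by omega)
  rw [potNear_symm h θ θ' a b cp cm x xb z zb, potNear_symm h θ θ' a b cp cm x (xb + 1) z (zb - 1),
    add_comm x xb]
  exact hs

/-- Step with signs `-` (first vertex) and `+` (second vertex). -/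
theorem step_opp_minus (h θ θ' a b cp cm x xb z zb : ℤ)
    (hθ : 1 ≤ θ) (hθ' : 1 ≤ θ') (hsum : θ + θ' ≤ h)
    (ha : 0 ≤ a) (hb : 0 ≤ b) (hab : a + b = h - θ)
    (hcp : 0 ≤ cp) (hcm : 0 ≤ cm) (hc : cp + cm = h - θ')
    (hx : 0 ≤ x) (hxb : 0 ≤ xb) (hz : 0 ≤ z) (hzb : 1 ≤ zb)
    (htot : x + xb + z + zb = θ + θ' + 1) :
    potNear h θ θ' a b cp cm x xb z zb - potNear h θ θ' a b cp cm (x + 1) xb z (zb - 1)
      ≤ 2 * costOpp h θ θ' (x + xb) xb (b + xb) (cm + zb - 1) := by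
  have hs := step_opp_plus h θ θ' b a cm cp xb x zb z hθ hθ' hsum hb ha (by omega) hcm hcp
    (by omega) hxb hx hzb hz (by omega)
  rw [potNear_symm h θ θ' a b cp cm x xb z zb, potNear_symm h θ θ' a b cp cm (x + 1) xb z (zb - 1),
    add_comm x xb]
  exact hs

end Vale.Agent.Lib.P040.TP.Gen
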