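import Vale.Agent.Lib.P040.TP.Gen.Defs

namespace Vale.Agent.Lib.P040.TP.Gen

private theorem card_fin_Ico (d lo hi : ℕ) (h : hi ≤ d) :
    ((Finset.univ : Finset (Fin d)).filter (fun t => lo ≤ t.val ∧ t.val < hi)).card = hi - lo := by
  have key : ((Finset.univ : Finset (Fin d)).filter (fun t => lo ≤ t.val ∧ t.val < hi)).map
      Fin.valEmbedding = Finset.Ico lo hi := by
    ext x
    simp only [Finset.mem_map, Finset.mem_filter, Finset.mem_univ, true_and,
      Fin.valEmbedding_apply, Finset.mem_Ico]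
    constructor
    · rintro ⟨t, ht, rfl⟩
      exact ht
    · intro hx
      exact ⟨⟨x, lt_of_lt_of_le hx.2 h⟩, hx, rfl⟩
  rw [← Finset.card_map Fin.valEmbedding, key, Nat.card_Ico]

private theorem card_diff (d a b : ℕ) (ha : a ≤ d) (hb : b ≤ d) :
    (((Finset.univ : Finset (Fin d)).filter (fun t => ¬ (t.val < a ↔ t.val < b))).card : ℤ)
      = |(a : ℤ) - b| := by
  have h1 : (Finset.univ : Finset (Fin d)).filter (fun t => ¬ (t.val < a ↔ t.val < b))
      = (Finset.univ : Finset (Fin d)).filter (fun t => min a b ≤ t.val ∧ t.val < max a b) := by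
    apply Finset.filter_congr
    intro t _
    rcases le_total a b with h | h
    · rw [min_eq_left h, max_eq_right h]; omega
    · rw [min_eq_right h, max_eq_left h]; omega
  rw [h1, card_fin_Ico d _ _ (max_le ha hb)]
  rcases le_total a b with h | h
  · rw [min_eq_left h, max_eq_right h, abs_of_nonpos (by omega)]; omega
  · rw [min_eq_right h, max_eq_left h, abs_of_nonneg (by omega)]; omega

private theorem card_same (d a b : ℕ) (ha : a ≤ d) (hb : b ≤ d) :
    (((Finset.univ : Finset (Fin d)).filter (fun t => (t.val < a ↔ t.val < b))).card : ℤ)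
      = d - |(a : ℤ) - b| := by
  have h := Finset.card_filter_add_card_filter_not
    (s := (Finset.univ : Finset (Fin d))) (fun t => (t.val < a ↔ t.val < b))
  rw [Finset.card_univ, Fintype.card_fin] at h
  have h2 := card_diff d a b ha hb
  rw [← h2]
  omega

/-- Two thermometers read from the bottom: the number of agreeing cells. -/
theorem thermo_same (d : ℕ) (u u' : ℤ) (hu : |u| ≤ d) (hu' : |u'| ≤ d)
    (pu : ∃ k : ℤ, u + d = 2 * k) (pu' : ∃ k : ℤ, u' + d = 2 * k) :
    2 * (((Finset.univ : Finset (Fin d)).filter (fun t =>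
        decide (2 * ((t.val : ℤ) + 1) ≤ u + d) = decide (2 * ((t.val : ℤ) + 1) ≤ u' + d))).card : ℤ)
      = 2 * (d : ℤ) - |u - u'| := by
  obtain ⟨k, hk⟩ := pu
  obtain ⟨k', hk'⟩ := pu'
  rw [abs_le] at hu hu'
  have ha : k.toNat ≤ d := by omega
  have hb : k'.toNat ≤ d := by omega
  have hka : (k.toNat : ℤ) = k := Int.toNat_of_nonneg (by omega)
  have hkb : (k'.toNat : ℤ) = k' := Int.toNat_of_nonneg (by omega)
  have h1 : (Finset.univ : Finset (Fin d)).filter (fun t =>
        decide (2 * ((t.val : ℤ) + 1) ≤ u + d) = decide (2 * ((t.val : ℤ) + 1) ≤ u' + d))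
      = (Finset.univ : Finset (Fin d)).filter (fun t => (t.val < k.toNat ↔ t.val < k'.toNat)) := by
    apply Finset.filter_congr
    intro t _
    rw [decide_eq_decide]
    omega
  rw [h1, card_same d _ _ ha hb, hka, hkb]
  have e : u - u' = 2 * (k - k') := by omega
  rw [e, abs_mul, abs_two]
  ring

/-- Two thermometers read from the top: the number of agreeing cells. -/
theorem thermo_same_top (d : ℕ) (u u' : ℤ) (hu : |u| ≤ d) (hu' : |u'| ≤ d)
    (pu : ∃ k : ℤ, u + d = 2 * k) (pu' : ∃ k : ℤ, u' + d = 2 * k) :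
    2 * (((Finset.univ : Finset (Fin d)).filter (fun t =>
        decide (2 * ((d : ℤ) - (t.val : ℤ)) ≤ u + d) =
          decide (2 * ((d : ℤ) - (t.val : ℤ)) ≤ u' + d))).card : ℤ)
      = 2 * (d : ℤ) - |u - u'| := by
  obtain ⟨k, hk⟩ := pu
  obtain ⟨k', hk'⟩ := pu'
  rw [abs_le] at hu hu'
  have ha : (d - k.toNat) ≤ d := by omega
  have hb : (d - k'.toNat) ≤ d := by omega
  have hka : ((d - k.toNat : ℕ) : ℤ) = d - k := by omega
  have hkb : ((d - k'.toNat : ℕ) : ℤ) = d - k' := by omega
  have h1 : (Finset.univ : Finset (Fin d)).filter (fun t =>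
        decide (2 * ((d : ℤ) - (t.val : ℤ)) ≤ u + d) =
          decide (2 * ((d : ℤ) - (t.val : ℤ)) ≤ u' + d))
      = (Finset.univ : Finset (Fin d)).filter
          (fun t => (t.val < d - k.toNat ↔ t.val < d - k'.toNat)) := by
    apply Finset.filter_congr
    intro t _
    rw [decide_eq_decide]
    omega
  rw [h1, card_same d _ _ ha hb, hka, hkb]
  have e : u - u' = 2 * (k - k') := by omega
  have e2 : (d : ℤ) - k - (d - k') = -(k - k') := by ring
  rw [e, abs_mul, abs_two, e2, abs_neg]
  ring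

/-- One thermometer read from the bottom and one from the top: the number of agreeing cells. -/
theorem thermo_opp (d : ℕ) (u u' : ℤ) (hu : |u| ≤ d) (hu' : |u'| ≤ d)
    (pu : ∃ k : ℤ, u + d = 2 * k) (pu' : ∃ k : ℤ, u' + d = 2 * k) :
    2 * (((Finset.univ : Finset (Fin d)).filter (fun t =>
        decide (2 * ((t.val : ℤ) + 1) ≤ u + d) =
          decide (2 * ((d : ℤ) - (t.val : ℤ)) ≤ u' + d))).card : ℤ)
      = |u + u'| := by
  obtain ⟨k, hk⟩ := pu
  obtain ⟨k', hk'⟩ := pu'
  rw [abs_le] at hu hu'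
  have ha : k.toNat ≤ d := by omega
  have hb : (d - k'.toNat) ≤ d := by omega
  have hka : (k.toNat : ℤ) = k := Int.toNat_of_nonneg (by omega)
  have hkb : ((d - k'.toNat : ℕ) : ℤ) = d - k' := by omega
  have h1 : (Finset.univ : Finset (Fin d)).filter (fun t =>
        decide (2 * ((t.val : ℤ) + 1) ≤ u + d) =
          decide (2 * ((d : ℤ) - (t.val : ℤ)) ≤ u' + d))
      = (Finset.univ : Finset (Fin d)).filter
          (fun t => ¬ (t.val < k.toNat ↔ t.val < d - k'.toNat)) := by
    apply Finset.filter_congr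
    intro t _
    rw [decide_eq_decide]
    omega
  rw [h1, card_diff d _ _ ha hb, hka, hkb]
  have e : u + u' = 2 * (k - (d - k')) := by omega
  rw [e, abs_mul, abs_two]

theorem ext_isSign (n : ℕ) (x : Fin n → Bool) : IsSign (ext n x) := by
  intro j
  unfold ext sgn
  split
  · split
    · exact Or.inl rfl
    · exact Or.inr rfl
  · exact Or.inl rfl

end Vale.Agent.Lib.P040.TP.Gen
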