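import Vale.Agent.Lib.P040.TP.Gen.Defs

namespace Vale.Agent.Lib.P040.TP.Gen

private lemma zl_pre_succ (ε : ℕ → ℤ) (g : ℕ) : pre ε (g + 1) = pre ε g + ε g := by
  unfold pre
  rw [Finset.sum_range_succ]

private lemma zl_inner (ε : ℕ → ℤ) (e : ℤ) (g : ℕ) :
    ∑ k ∈ Finset.range g, (1 + ε k * e) = (g : ℤ) + e * pre ε g := by
  unfold pre
  rw [Finset.sum_add_distrib, Finset.sum_const, Finset.card_range, Finset.mul_sum]
  congr 1
  · simp
  · exact Finset.sum_congr rfl (fun k _ => mul_comm _ _)

/-- Left zone: both vertices see the points `0, ..., g-1` on their left, with pure profiles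
(the sums of the signs further left). Crossings in the zone minus agreements, doubled. -/
theorem zl (g : ℕ) (ε ε' : ℕ → ℤ) (hε' : IsSign ε') :
    (pre ε' g) ^ 2 - (g : ℤ) ^ 2 ≤
      2 * (∑ l ∈ Finset.range g, ∑ k ∈ Finset.range l, (1 + ε k * ε' l)
        - ∑ j ∈ Finset.range g, (2 * (j : ℤ) - |pre ε j - pre ε' j|)) := by
  induction g with
  | zero => simp [pre]
  | succ g ih =>
    rw [Finset.sum_range_succ, Finset.sum_range_succ, zl_pre_succ, zl_inner]
    have hab : ε' g * (pre ε' g - pre ε g) ≤ |pre ε g - pre ε' g| := by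
      rcases hε' g with h | h
      · rw [h]
        have := neg_abs_le (pre ε g - pre ε' g)
        linarith
      · rw [h]
        have := le_abs_self (pre ε g - pre ε' g)
        linarith
    have hsq : ε' g * ε' g = 1 := by
      rcases hε' g with h | h <;> rw [h] <;> norm_num
    push_cast
    nlinarith

end Vale.Agent.Lib.P040.TP.Gen
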